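import Mathlib

/-!
# Matched neighbourhoods

`X` is a set with finitely many invertible moves `act a` (`a` a letter), `c` is a colouring.
-/

namespace Vale.Agent.LipFree

open Finset

section Words

variable {X Λ : Type*} (act : Λ → Equiv.Perm X)

/-- Action of a word. -/
def wact : List Λ → X → X
  | [], v => v
  | a :: w, v => act a (wact w v)

@[simp] theorem wact_nil (v : X) : wact act [] v = v := rfl

@[simp] theorem wact_cons (a : Λ) (w : List Λ) (v : X) :
    wact act (a :: w) v = act a (wact act w v) := rfl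

theorem wact_append (w w' : List Λ) (v : X) :
    wact act (w ++ w') v = wact act w (wact act w' v) := by
  induction w with
  | nil => rfl
  | cons a w ih => simp [ih]

/-- `y'` is reached from `y` by a word of length at most `j`. -/
def Reach (j : ℕ) (y y' : X) : Prop := ∃ w : List Λ, w.length ≤ j ∧ wact act w y = y'

variable {act}

theorem Reach.refl (y : X) : Reach act 0 y y := ⟨[], by simp, rfl⟩

theorem Reach.mono {j j' : ℕ} (h : j ≤ j') {y y' : X} (hr : Reach act j y y') :
    Reach act j' y y' := by
  obtain ⟨w, hw, h'⟩ := hr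
  exact ⟨w, hw.trans h, h'⟩

theorem Reach.trans {j j' : ℕ} {x y z : X} (h : Reach act j x y) (h' : Reach act j' y z) :
    Reach act (j + j') x z := by
  obtain ⟨w, hw, rfl⟩ := h
  obtain ⟨w', hw', rfl⟩ := h'
  refine ⟨w' ++ w, ?_, wact_append act w' w x⟩
  simp only [List.length_append]
  omega

variable {inv : Λ → Λ} (hinv : ∀ a v, act (inv a) (act a v) = v)

include hinv

theorem Reach.symm {j : ℕ} {x y : X} (h : Reach act j x y) : Reach act j y x := by
  obtain ⟨w, hw, rfl⟩ := h
  induction w generalizing j with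
  | nil => exact ⟨[], by simp, rfl⟩
  | cons a w ih =>
    simp only [List.length_cons] at hw
    obtain ⟨w', hw', h'⟩ := ih (j := j - 1) (by omega)
    refine ⟨w' ++ [inv a], ?_, ?_⟩
    · simp only [List.length_append, List.length_cons, List.length_nil]
      omega
    · rw [wact_append]
      simp only [wact_cons, wact_nil, hinv]
      exact h'

end Words

section Match

variable {X Λ C : Type*} (act : Λ → Equiv.Perm X) (c : X → C) (R : ℕ)

/-- `v` and `y` have the same coloured ball of radius `m` (words of length `< m`). -/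
def Mat (m : ℕ) (v y : X) : Prop :=
  ∀ w : List Λ, w.length < m → c (wact act w v) = c (wact act w y)

/-- the basic relation -/
def Q (r : ℕ) (v y z : X) : Prop :=
  ∃ j : ℕ, j + r ≤ R ∧ Reach act j y z ∧ Mat act c (j + r) v z

variable {act c R}

theorem Mat.mono {m m' : ℕ} (h : m' ≤ m) {v y : X} (hm : Mat act c m v y) : Mat act c m' v y :=
  fun w hw => hm w (lt_of_lt_of_le hw h)

theorem Q.mono {r r' : ℕ} (h : r' ≤ r) {v y z : X} (hq : Q act c R r v y z) :
    Q act c R r' v y z := by
  obtain ⟨j, hj, hr, hm⟩ := hq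
  exact ⟨j, by omega, hr, hm.mono (by omega)⟩

theorem Q.color {r : ℕ} (hr : 1 ≤ r) {v y z : X} (hq : Q act c R r v y z) : c v = c z := by
  obtain ⟨j, hj, hr', hm⟩ := hq
  exact hm [] (by simp; omega)

theorem Q.self (v : X) : Q act c R R v v v :=
  ⟨0, by omega, Reach.refl v, fun _ _ => rfl⟩

variable {inv : Λ → Λ} (hinv : ∀ a v, act (inv a) (act a v) = v)

/-- Moving the middle point. -/
theorem Q.move_mid (hinv : ∀ a v, act (inv a) (act a v) = v)
    {r : ℕ} {v y z : X} (a : Λ) (hq : Q act c R (r + 1) v y z) :
    Q act c R r v (act a y) z := by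
  obtain ⟨j, hj, ⟨w, hw, hw'⟩, hm⟩ := hq
  refine ⟨j + 1, by omega, ⟨w ++ [inv a], ?_, ?_⟩, hm.mono (by omega)⟩
  · simp only [List.length_append, List.length_cons, List.length_nil]
    omega
  · rw [wact_append]
    simp only [wact_cons, wact_nil, hinv]
    exact hw'

/-- Moving the two outer points. -/
theorem Q.move_out {r : ℕ} {v y z : X} (a : Λ) (hq : Q act c R (r + 2) v y z) :
    Q act c R r (act a v) y (act a z) := by
  obtain ⟨j, hj, ⟨w, hw, hw'⟩, hm⟩ := hq
  refine ⟨j + 1, by omega, ⟨a :: w, ?_, ?_⟩, ?_⟩
  · simp only [List.length_cons]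
    omega
  · simp [hw']
  · intro w' hw''
    have hl : (w' ++ [a]).length < j + (r + 2) := by
      rw [List.length_append, List.length_singleton]
      omega
    have := hm (w' ++ [a]) hl
    simpa [wact_append] using this

/-- Uniqueness of the matched point. -/
theorem Q.unique (hinv : ∀ a v, act (inv a) (act a v) = v)
    (hc : ∀ w : List Λ, w.length < 2 * R → ∀ y, c (wact act w y) = c y → wact act w y = y)
    {r r' : ℕ} (hr : 1 ≤ r) (hr' : 1 ≤ r') {v y z z' : X}
    (hq : Q act c R r v y z) (hq' : Q act c R r' v y z') : z = z' := by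
  have h1 := hq.color hr
  have h2 := hq'.color hr'
  obtain ⟨j, hj, hR, -⟩ := hq
  obtain ⟨j', hj', hR', -⟩ := hq'
  obtain ⟨w, hw, hw'⟩ := (Reach.symm hinv hR).trans hR'
  have := hc w (by omega) z (by rw [hw', ← h2, h1])
  rw [← this, hw']

/-- The existence of a matched point depends only on the coloured ball of the middle point. -/
theorem Q.type_invariant {r : ℕ} {v y y' z : X} (hr : 1 ≤ r)
    (ht : ∀ w : List Λ, w.length < 2 * R → c (wact act w y) = c (wact act w y'))
    (hq : Q act c R r v y z) : ∃ z', Q act c R r v y' z' := by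
  obtain ⟨j, hj, ⟨w, hw, rfl⟩, hm⟩ := hq
  refine ⟨wact act w y', j, hj, ⟨w, hw, rfl⟩, fun w' hw' => ?_⟩
  rw [hm w' hw', ← wact_append, ← wact_append]
  exact ht _ (by simp only [List.length_append]; omega)

end Match

end Vale.Agent.LipFree
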