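import Mathlib
import Vale.Agent.LipFree.Match

/-!
# The matching kernels `g` and `G`
-/

namespace Vale.Agent.LipFree

open Finset

variable {X Λ C : Type*} (act : Λ → Equiv.Perm X) (c : X → C) (R : ℕ)

open Classical in
/-- The kernel `g v y z`. -/
noncomputable def gk (v y z : X) : ℕ := Nat.findGreatest (fun r => Q act c R r v y z) R

open Classical in
/-- The kernel `G v y`. -/
noncomputable def Gk (v y : X) : ℕ := Nat.findGreatest (fun r => ∃ z, Q act c R r v y z) R

variable {act c R}

theorem Q.le_R {r : ℕ} {v y z : X} (h : Q act c R r v y z) : r ≤ R := by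
  obtain ⟨j, hj, -, -⟩ := h
  omega

theorem gk_le (v y z : X) : gk act c R v y z ≤ R := by
  classical
  exact Nat.findGreatest_le R

theorem Gk_le (v y : X) : Gk act c R v y ≤ R := by
  classical
  exact Nat.findGreatest_le R

theorem Q.le_gk {r : ℕ} {v y z : X} (h : Q act c R r v y z) : r ≤ gk act c R v y z := by
  classical
  exact Nat.le_findGreatest h.le_R h

theorem gk_spec {v y z : X} (h : gk act c R v y z ≠ 0) :
    Q act c R (gk act c R v y z) v y z := by
  classical
  exact Nat.findGreatest_of_ne_zero (P := fun r => Q act c R r v y z) rfl h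

theorem Q.le_Gk {r : ℕ} {v y z : X} (h : Q act c R r v y z) : r ≤ Gk act c R v y := by
  classical
  exact Nat.le_findGreatest h.le_R ⟨z, h⟩

theorem Gk_spec {v y : X} (h : Gk act c R v y ≠ 0) :
    ∃ z, Q act c R (Gk act c R v y) v y z := by
  classical
  exact Nat.findGreatest_of_ne_zero (P := fun r => ∃ z, Q act c R r v y z) rfl h

theorem gk_le_Gk (v y z : X) : gk act c R v y z ≤ Gk act c R v y := by
  by_cases h : gk act c R v y z = 0
  · omega
  · exact (gk_spec h).le_Gk

theorem gk_color {v y z : X} (h : gk act c R v y z ≠ 0) : c v = c z :=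
  (gk_spec h).color (by omega)

variable {inv : Λ → Λ} (hinv : ∀ a v, act (inv a) (act a v) = v)

theorem gk_unique (hinv : ∀ a v, act (inv a) (act a v) = v)
    (hc : ∀ w : List Λ, w.length < 2 * R → ∀ y, c (wact act w y) = c y → wact act w y = y)
    {v y z z' : X} (h : gk act c R v y z ≠ 0) (h' : gk act c R v y z' ≠ 0) : z = z' :=
  Q.unique hinv hc (by omega) (by omega) (gk_spec h) (gk_spec h')

theorem gk_move_mid (hinv : ∀ a v, act (inv a) (act a v) = v) (a : Λ) (v y z : X) :
    gk act c R v y z ≤ gk act c R v (act a y) z + 1 := by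
  by_cases h : gk act c R v y z = 0
  · omega
  · have h1 := gk_spec h
    obtain ⟨r, hr⟩ : ∃ r, gk act c R v y z = r + 1 := ⟨gk act c R v y z - 1, by omega⟩
    rw [hr] at h1 ⊢
    have := (h1.move_mid hinv a).le_gk
    omega

theorem gk_move_mid' (hinv : ∀ a v, act (inv a) (act a v) = v) (a : Λ) (v y z : X) :
    gk act c R v (act a y) z ≤ gk act c R v y z + 1 := by
  have := gk_move_mid (c := c) (R := R) hinv (inv a) v (act a y) z
  rwa [hinv] at this

theorem Gk_move_mid (hinv : ∀ a v, act (inv a) (act a v) = v) (a : Λ) (v y : X) :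
    Gk act c R v y ≤ Gk act c R v (act a y) + 1 := by
  by_cases h : Gk act c R v y = 0
  · omega
  · obtain ⟨z, h1⟩ := Gk_spec h
    obtain ⟨r, hr⟩ : ∃ r, Gk act c R v y = r + 1 := ⟨Gk act c R v y - 1, by omega⟩
    rw [hr] at h1 ⊢
    have := (h1.move_mid hinv a).le_Gk
    omega

theorem Gk_move_mid' (hinv : ∀ a v, act (inv a) (act a v) = v) (a : Λ) (v y : X) :
    Gk act c R v (act a y) ≤ Gk act c R v y + 1 := by
  have := Gk_move_mid (c := c) (R := R) hinv (inv a) v (act a y)
  rwa [hinv] at this

theorem gk_move_out (a : Λ) (v y z : X) :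
    gk act c R v y z ≤ gk act c R (act a v) y (act a z) + 2 := by
  by_cases h : gk act c R v y z ≤ 1
  · omega
  · have h0 : gk act c R v y z ≠ 0 := by omega
    have h1 := gk_spec h0
    obtain ⟨r, hr⟩ : ∃ r, gk act c R v y z = r + 2 := ⟨gk act c R v y z - 2, by omega⟩
    rw [hr] at h1 ⊢
    have := (h1.move_out a).le_gk
    omega

theorem gk_move_out' (hinv : ∀ a v, act (inv a) (act a v) = v) (a : Λ) (v y z : X) :
    gk act c R (act a v) y (act a z) ≤ gk act c R v y z + 2 := by
  have := gk_move_out (c := c) (R := R) (act := act) (inv a) (act a v) y (act a z)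
  rwa [hinv, hinv] at this

theorem Gk_self (v : X) : Gk act c R v v = R :=
  le_antisymm (Gk_le v v) (Q.self v).le_Gk

theorem Gk_type_le {v y y' : X}
    (ht : ∀ w : List Λ, w.length < 2 * R → c (wact act w y) = c (wact act w y')) :
    Gk act c R v y ≤ Gk act c R v y' := by
  by_cases h : Gk act c R v y = 0
  · omega
  · obtain ⟨z, h1⟩ := Gk_spec h
    obtain ⟨z', h2⟩ := h1.type_invariant (by omega) ht
    exact h2.le_Gk

theorem Gk_type {v y y' : X}
    (ht : ∀ w : List Λ, w.length < 2 * R → c (wact act w y) = c (wact act w y')) :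
    Gk act c R v y = Gk act c R v y' :=
  le_antisymm (Gk_type_le ht) (Gk_type_le fun w hw => (ht w hw).symm)

/-- If `S` contains all points that can be reached from `y`, then the sum of `g v y z` over
`z ∈ S` is `G v y`. -/
theorem sum_gk (hinv : ∀ a v, act (inv a) (act a v) = v)
    (hc : ∀ w : List Λ, w.length < 2 * R → ∀ y, c (wact act w y) = c y → wact act w y = y)
    (v y : X) (S : Finset X) (hS : ∀ z j, Reach act j y z → z ∈ S) :
    ∑ z ∈ S, gk act c R v y z = Gk act c R v y := by
  classical
  by_cases h : Gk act c R v y = 0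
  · rw [h]
    refine Finset.sum_eq_zero fun z _ => ?_
    have := gk_le_Gk (act := act) (c := c) (R := R) v y z
    omega
  · obtain ⟨z, h1⟩ := Gk_spec h
    have hz : z ∈ S := by
      obtain ⟨j, -, hr, -⟩ := h1
      exact hS z j hr
    have hge := h1.le_gk
    have hle := gk_le_Gk (act := act) (c := c) (R := R) v y z
    rw [Finset.sum_eq_single_of_mem z hz]
    · omega
    · intro z' _ hne
      by_contra hne'
      exact hne (gk_unique hinv hc hne' (by omega))

end Vale.Agent.LipFree
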