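import Mathlib
import Vale.Agent.LipFree.Kernel

/-!
# The core inequality
-/

namespace Vale.Agent.LipFree

open Finset

/-- If `a` and `b` have at most one nonzero coordinate each and differ by at most `δ`
everywhere, then their `ℓ₁`-distance is at most `2 δ`. -/
theorem two_point {X : Type*} (S : Finset X) (a b : X → ℝ) (δ : ℝ) (hδ : 0 ≤ δ)
    (ha : ∀ y y', a y ≠ 0 → a y' ≠ 0 → y = y') (hb : ∀ y y', b y ≠ 0 → b y' ≠ 0 → y = y')
    (hab : ∀ y, |a y - b y| ≤ δ) : ∑ y ∈ S, |a y - b y| ≤ 2 * δ := by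
  classical
  have h1 : ∑ y ∈ S, |a y - b y|
      = ∑ y ∈ S.filter (fun y => a y ≠ 0) ∪ S.filter (fun y => b y ≠ 0), |a y - b y| := by
    symm
    apply Finset.sum_subset
    · intro y hy
      simp only [Finset.mem_union, Finset.mem_filter] at hy
      rcases hy with h | h
      · exact h.1
      · exact h.1
    · intro y hy hy'
      simp only [Finset.mem_union, Finset.mem_filter, not_or, not_and, not_not] at hy'
      rw [hy'.1 hy, hy'.2 hy]
      simp
  rw [h1]
  have hc1 : (S.filter (fun y => a y ≠ 0)).card ≤ 1 := by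
    rw [Finset.card_le_one]
    intro y hy y' hy'
    simp only [Finset.mem_filter] at hy hy'
    exact ha y y' hy.2 hy'.2
  have hc2 : (S.filter (fun y => b y ≠ 0)).card ≤ 1 := by
    rw [Finset.card_le_one]
    intro y hy y' hy'
    simp only [Finset.mem_filter] at hy hy'
    exact hb y y' hy.2 hy'.2
  have hcard := Finset.card_union_le (S.filter (fun y => a y ≠ 0)) (S.filter (fun y => b y ≠ 0))
  calc _ ≤ ((S.filter (fun y => a y ≠ 0)) ∪ (S.filter (fun y => b y ≠ 0))).card • δ :=
        Finset.sum_le_card_nsmul _ _ _ (fun y _ => hab y)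
    _ ≤ 2 • δ := nsmul_le_nsmul_left hδ (by omega)
    _ = 2 * δ := by simp [two_mul, two_smul]

/-- A coordinate function with at most one nonzero coordinate bounded by `1`. -/
theorem one_point {X : Type*} (S : Finset X) (a : X → ℝ)
    (ha : ∀ y y', a y ≠ 0 → a y' ≠ 0 → y = y') (hab : ∀ y, |a y| ≤ 1) :
    ∑ y ∈ S, |a y| ≤ 1 := by
  classical
  have h1 : ∑ y ∈ S, |a y| = ∑ y ∈ S.filter (fun y => a y ≠ 0), |a y| := by
    symm
    apply Finset.sum_subset (Finset.filter_subset _ _)
    intro y hy hy'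
    simp only [Finset.mem_filter, not_and, not_not] at hy'
    rw [hy' hy]
    simp
  rw [h1]
  have hc1 : (S.filter (fun y => a y ≠ 0)).card ≤ 1 := by
    rw [Finset.card_le_one]
    intro y hy y' hy'
    simp only [Finset.mem_filter] at hy hy'
    exact ha y y' hy.2 hy'.2
  calc _ ≤ (S.filter (fun y => a y ≠ 0)).card • (1 : ℝ) :=
        Finset.sum_le_card_nsmul _ _ _ (fun y _ => hab y)
    _ ≤ 1 • (1 : ℝ) := nsmul_le_nsmul_left zero_le_one hc1
    _ = 1 := by simp

section Family

variable {X Λ C : Type*} (act : Λ → Equiv.Perm X) (c : X → C) (R : ℕ)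

/-- Two points have the same type. -/
def SameType (y y' : X) : Prop :=
  ∀ w : List Λ, w.length < 2 * R → c (wact act w y) = c (wact act w y')

/-- The test functions. -/
def testFun (ℓ D : ℝ) : Set (X → ℝ) :=
  {f | (∀ y, |f y| ≤ D) ∧ (∀ a y, |f y - f (act a y)| ≤ 1) ∧
    ∀ y y', SameType act c R y y' → |f y - f y'| ≤ ℓ}

variable {act c R} {inv : Λ → Λ} (hinv : ∀ a v, act (inv a) (act a v) = v)
  (hc : ∀ w : List Λ, w.length < 2 * R → ∀ y, c (wact act w y) = c y → wact act w y = y)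
  {ℓ D : ℝ}

include hinv in
theorem Gk_mem (hℓ : 0 ≤ ℓ) (hD : (R : ℝ) ≤ D) (v : X) :
    (fun y => (Gk act c R v y : ℝ)) ∈ testFun act c R ℓ D := by
  refine ⟨fun y => ?_, fun a y => ?_, fun y y' h => ?_⟩
  · rw [abs_of_nonneg (Nat.cast_nonneg _)]
    exact (Nat.cast_le.2 (Gk_le v y)).trans hD
  · have h1 := Gk_move_mid (c := c) (R := R) hinv a v y
    have h2 := Gk_move_mid' (c := c) (R := R) hinv a v y
    have h1' : (Gk act c R v y : ℝ) ≤ Gk act c R v (act a y) + 1 := by exact_mod_cast h1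
    have h2' : (Gk act c R v (act a y) : ℝ) ≤ Gk act c R v y + 1 := by exact_mod_cast h2
    rw [abs_le]
    constructor <;> linarith
  · change |(Gk act c R v y : ℝ) - Gk act c R v y'| ≤ ℓ
    rw [Gk_type h]
    simpa using hℓ

include hinv hc in
theorem psi_mem (hR : 0 < R) (hℓ : 0 ≤ ℓ) (hℓR : ℓ ≤ R) (hD : ℓ ≤ D) (v : X) (S : Finset X)
    (e : X → ℝ) (he : ∀ y, |e y| ≤ 1) :
    (fun z => ℓ / 2 * ∑ y ∈ S, e y * ((gk act c R v z y : ℝ) / R)) ∈ testFun act c R ℓ D := by
  have hR' : (0 : ℝ) < R := Nat.cast_pos.2 hR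
  have key : ∀ z z' (δ : ℝ), 0 ≤ δ → (∀ y, |(gk act c R v z y : ℝ) / R - gk act c R v z' y / R| ≤ δ) →
      |ℓ / 2 * ∑ y ∈ S, e y * ((gk act c R v z y : ℝ) / R)
        - ℓ / 2 * ∑ y ∈ S, e y * ((gk act c R v z' y : ℝ) / R)| ≤ ℓ * δ := by
    intro z z' δ hδ hδ'
    have h1 := two_point S (fun y => (gk act c R v z y : ℝ) / R)
      (fun y => (gk act c R v z' y : ℝ) / R) δ hδ
      (fun y y' h h' => gk_unique hinv hc (v := v) (y := z)
        (fun h0 => h (by simp [h0])) (fun h0 => h' (by simp [h0])))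
      (fun y y' h h' => gk_unique hinv hc (v := v) (y := z')
        (fun h0 => h (by simp [h0])) (fun h0 => h' (by simp [h0]))) hδ'
    rw [← mul_sub, ← Finset.sum_sub_distrib, abs_mul, abs_of_nonneg (by linarith : 0 ≤ ℓ / 2)]
    have h2 : |∑ y ∈ S, (e y * ((gk act c R v z y : ℝ) / R) - e y * ((gk act c R v z' y : ℝ) / R))|
        ≤ 2 * δ := by
      refine (Finset.abs_sum_le_sum_abs _ _).trans (le_trans (Finset.sum_le_sum fun y _ => ?_) h1)
      rw [← mul_sub, abs_mul]
      exact mul_le_of_le_one_left (abs_nonneg _) (he y)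
    calc ℓ / 2 * |_| ≤ ℓ / 2 * (2 * δ) := mul_le_mul_of_nonneg_left h2 (by linarith)
      _ = ℓ * δ := by ring
  have hle : ∀ z y, (gk act c R v z y : ℝ) / R ≤ 1 := fun z y => by
    rw [div_le_one hR']
    exact Nat.cast_le.2 (gk_le v z y)
  have hge : ∀ z y, 0 ≤ (gk act c R v z y : ℝ) / R := fun z y => by positivity
  refine ⟨fun z => ?_, fun a z => ?_, fun z z' h => ?_⟩
  · rw [abs_mul, abs_of_nonneg (by linarith : 0 ≤ ℓ / 2)]
    have h1 := one_point S (fun y => (gk act c R v z y : ℝ) / R)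
      (fun y y' h h' => gk_unique hinv hc (v := v) (y := z)
        (fun h0 => h (by simp [h0])) (fun h0 => h' (by simp [h0])))
      (fun y => by rw [abs_of_nonneg (hge z y)]; exact hle z y)
    have h2 : |∑ y ∈ S, e y * ((gk act c R v z y : ℝ) / R)| ≤ 1 := by
      refine (Finset.abs_sum_le_sum_abs _ _).trans (le_trans (Finset.sum_le_sum fun y _ => ?_) h1)
      rw [abs_mul]
      exact mul_le_of_le_one_left (abs_nonneg _) (he y)
    calc ℓ / 2 * |_| ≤ ℓ / 2 * 1 := mul_le_mul_of_nonneg_left h2 (by linarith)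
      _ ≤ D := by linarith
  · refine (key z (act a z) (1 / R) (by positivity) fun y => ?_).trans ?_
    · rw [← sub_div, abs_div, abs_of_pos hR']
      refine div_le_div_of_nonneg_right ?_ hR'.le
      have h1 := gk_move_mid (c := c) (R := R) hinv a v z y
      have h2 := gk_move_mid' (c := c) (R := R) hinv a v z y
      have h1' : (gk act c R v z y : ℝ) ≤ gk act c R v (act a z) y + 1 := by exact_mod_cast h1
      have h2' : (gk act c R v (act a z) y : ℝ) ≤ gk act c R v z y + 1 := by exact_mod_cast h2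
      rw [abs_le]
      constructor <;> linarith
    · rw [mul_one_div, div_le_one hR']
      exact hℓR
  · refine (key z z' 1 zero_le_one fun y => ?_).trans (by linarith)
    have h1 := hle z y
    have h2 := hle z' y
    have h3 := hge z y
    have h4 := hge z' y
    rw [abs_le]
    constructor <;> linarith

omit inv in
/-- Total variation bound. -/
theorem total_variation (hℓ : 1 ≤ ℓ) (hD : ℓ ≤ D) (K : Finset X) (t : X → ℝ) (r : X) (A2 : ℝ)
    (H2 : ∀ f ∈ testFun act c R ℓ D, |∑ y ∈ K, t y * f y - f r| ≤ A2) :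
    ∑ z ∈ K, |t z| ≤ 1 + 2 * A2 := by
  classical
  have hf : ∀ y, |(1 / 2 : ℝ) * SignType.sign (t y)| ≤ 1 / 2 := fun y => by
    rw [abs_mul, abs_of_nonneg (by norm_num : (0 : ℝ) ≤ 1 / 2)]
    have : |((SignType.sign (t y) : SignType) : ℝ)| ≤ 1 := by
      rcases SignType.sign (t y) <;> simp
    linarith
  have hdiff : ∀ y y', |(1 / 2 : ℝ) * SignType.sign (t y) - 1 / 2 * SignType.sign (t y')| ≤ 1 :=
    fun y y' => by
      have h1 := hf y
      have h2 := hf y'
      rw [abs_le] at h1 h2 ⊢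
      constructor <;> linarith [h1.1, h1.2, h2.1, h2.2]
  have hmem : (fun y => (1 / 2 : ℝ) * SignType.sign (t y)) ∈ testFun act c R ℓ D :=
    ⟨fun y => (hf y).trans (by linarith), fun a y => hdiff _ _,
      fun y y' _ => (hdiff _ _).trans hℓ⟩
  have h := H2 _ hmem
  have h1 : ∑ y ∈ K, t y * ((1 / 2 : ℝ) * SignType.sign (t y)) = 1 / 2 * ∑ y ∈ K, |t y| := by
    rw [Finset.mul_sum]
    refine Finset.sum_congr rfl fun y _ => ?_
    have := self_mul_sign (t y)
    linarith
  rw [h1] at h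
  have h2 := (abs_le.1 h).2
  have h3 := (abs_le.1 (hf r)).2
  linarith

include hinv hc in
/-- Lower bound. -/
theorem lower (hR : 0 < R) (hℓ : 0 ≤ ℓ) (hD : (R : ℝ) ≤ D) (K S : Finset X)
    (hS : ∀ y ∈ K, ∀ z j, Reach act j y z → z ∈ S) (t : X → ℝ) (v r : X) (A2 : ℝ)
    (hr : SameType act c R v r)
    (H2 : ∀ f ∈ testFun act c R ℓ D, |∑ y ∈ K, t y * f y - f r| ≤ A2) :
    1 - A2 / R ≤ ∑ y ∈ S, |∑ z ∈ K, t z * ((gk act c R v z y : ℝ) / R)| := by
  have hR' : (0 : ℝ) < R := Nat.cast_pos.2 hR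
  have h := H2 _ (Gk_mem hinv hℓ hD v)
  have hG : (Gk act c R v r : ℝ) = R := by
    rw [← Gk_type hr, Gk_self]
  rw [hG] at h
  have h1 : ∑ y ∈ S, ∑ z ∈ K, t z * ((gk act c R v z y : ℝ) / R)
      = (∑ z ∈ K, t z * (Gk act c R v z : ℝ)) / R := by
    rw [Finset.sum_comm, Finset.sum_div]
    refine Finset.sum_congr rfl fun z hz => ?_
    rw [← sum_gk hinv hc v z S (hS z hz), Nat.cast_sum, Finset.mul_sum, Finset.sum_div]
    refine Finset.sum_congr rfl fun y _ => ?_
    ring
  calc 1 - A2 / R = (R - A2) / R := by field_simp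
    _ ≤ (∑ z ∈ K, t z * (Gk act c R v z : ℝ)) / R := by
        refine div_le_div_of_nonneg_right ?_ hR'.le
        have := (abs_le.1 h).1
        linarith
    _ = ∑ y ∈ S, ∑ z ∈ K, t z * ((gk act c R v z y : ℝ) / R) := h1.symm
    _ ≤ _ := Finset.sum_le_sum fun y _ => le_abs_self _

include hinv hc in
/-- Upper bound. -/
theorem upper (hR : 0 < R) (hℓ : 1 ≤ ℓ) (hℓR : ℓ ≤ R) (hD : ℓ ≤ D) (K S : Finset X)
    (t t' : X → ℝ) (v r : X) (a : Λ) (A1 A2 : ℝ)
    (H1 : ∀ f ∈ testFun act c R ℓ D, |∑ y ∈ K, (t' y - t y) * f y| ≤ A1)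
    (H2 : ∀ f ∈ testFun act c R ℓ D, |∑ y ∈ K, t y * f y - f r| ≤ A2) :
    ∑ y ∈ S, |∑ z ∈ K, t' z * ((gk act c R (act a v) z (act a y) : ℝ) / R)
      - ∑ z ∈ K, t z * ((gk act c R v z y : ℝ) / R)| ≤ 2 * A1 / ℓ + 4 / R * (1 + 2 * A2) := by
  classical
  have hR' : (0 : ℝ) < R := Nat.cast_pos.2 hR
  -- splitting
  have hsplit : ∀ y, ∑ z ∈ K, t' z * ((gk act c R (act a v) z (act a y) : ℝ) / R)
      - ∑ z ∈ K, t z * ((gk act c R v z y : ℝ) / R)
      = ∑ z ∈ K, (t' z - t z) * ((gk act c R (act a v) z (act a y) : ℝ) / R)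
        + ∑ z ∈ K, t z * ((gk act c R (act a v) z (act a y) : ℝ) / R
            - (gk act c R v z y : ℝ) / R) := by
    intro y
    rw [← Finset.sum_sub_distrib, ← Finset.sum_add_distrib]
    refine Finset.sum_congr rfl fun z _ => ?_
    ring
  -- first part
  have hfirst : ∑ y ∈ S, |∑ z ∈ K, (t' z - t z) * ((gk act c R (act a v) z (act a y) : ℝ) / R)|
      ≤ 2 * A1 / ℓ := by
    set e : X → ℝ := fun y =>
      SignType.sign (∑ z ∈ K, (t' z - t z) * ((gk act c R (act a v) z (act a y) : ℝ) / R)) with he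
    have he1 : ∀ y, |e ((act a).symm y)| ≤ 1 := fun y => by
      simp only [he]
      rcases SignType.sign (∑ z ∈ K, (t' z - t z) *
        ((gk act c R (act a v) z (act a ((act a).symm y)) : ℝ) / R)) <;> simp
    have hmem := psi_mem hinv hc hR (by linarith : (0 : ℝ) ≤ ℓ) hℓR hD (act a v)
      (S.map (act a).toEmbedding) (fun y => e ((act a).symm y)) he1
    have h := H1 _ hmem
    simp only [Finset.sum_map, Equiv.coe_toEmbedding, Equiv.symm_apply_apply] at h
    have h2 : ∑ y ∈ K, (t' y - t y) *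
        (ℓ / 2 * ∑ x ∈ S, e x * ((gk act c R (act a v) y (act a x) : ℝ) / R))
        = ℓ / 2 * ∑ y ∈ S,
          |∑ z ∈ K, (t' z - t z) * ((gk act c R (act a v) z (act a y) : ℝ) / R)| := by
      have h3 : ∀ y, |∑ z ∈ K, (t' z - t z) * ((gk act c R (act a v) z (act a y) : ℝ) / R)|
          = ∑ z ∈ K, e y * ((t' z - t z) * ((gk act c R (act a v) z (act a y) : ℝ) / R)) := by
        intro y
        rw [← Finset.mul_sum, he]
        exact (sign_mul_self _).symm
      simp_rw [h3]
      rw [Finset.sum_comm, Finset.mul_sum]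
      refine Finset.sum_congr rfl fun z _ => ?_
      rw [Finset.mul_sum, Finset.mul_sum, Finset.mul_sum]
      refine Finset.sum_congr rfl fun y _ => ?_
      ring
    rw [h2] at h
    have h4 := (abs_le.1 h).2
    rw [le_div_iff₀ (by linarith : (0 : ℝ) < ℓ)]
    linarith
  -- second part
  have hsecond : ∑ y ∈ S, |∑ z ∈ K, t z * ((gk act c R (act a v) z (act a y) : ℝ) / R
            - (gk act c R v z y : ℝ) / R)| ≤ 4 / R * (1 + 2 * A2) := by
    have hz : ∀ z, ∑ y ∈ S, |(gk act c R (act a v) z (act a y) : ℝ) / R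
            - (gk act c R v z y : ℝ) / R| ≤ 4 / R := by
      intro z
      have := two_point S (fun y => (gk act c R (act a v) z (act a y) : ℝ) / R)
        (fun y => (gk act c R v z y : ℝ) / R) (2 / R) (by positivity)
        (fun y y' h h' => (act a).injective (gk_unique hinv hc (v := act a v) (y := z)
          (fun h0 => h (by simp [h0])) (fun h0 => h' (by simp [h0]))))
        (fun y y' h h' => gk_unique hinv hc (v := v) (y := z)
          (fun h0 => h (by simp [h0])) (fun h0 => h' (by simp [h0])))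
        (fun y => by
          rw [← sub_div, abs_div, abs_of_pos hR']
          refine div_le_div_of_nonneg_right ?_ hR'.le
          have h1 := gk_move_out (act := act) (c := c) (R := R) a v z y
          have h2 := gk_move_out' (c := c) (R := R) hinv a v z y
          have h1' : (gk act c R v z y : ℝ) ≤ gk act c R (act a v) z (act a y) + 2 := by
            exact_mod_cast h1
          have h2' : (gk act c R (act a v) z (act a y) : ℝ) ≤ gk act c R v z y + 2 := by
            exact_mod_cast h2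
          rw [abs_le]
          constructor <;> linarith)
      refine this.trans (le_of_eq ?_)
      ring
    calc _ ≤ ∑ y ∈ S, ∑ z ∈ K, |t z| * |(gk act c R (act a v) z (act a y) : ℝ) / R
            - (gk act c R v z y : ℝ) / R| := by
          refine Finset.sum_le_sum fun y _ => (Finset.abs_sum_le_sum_abs _ _).trans ?_
          exact Finset.sum_le_sum fun z _ => (abs_mul _ _).le
      _ = ∑ z ∈ K, |t z| * ∑ y ∈ S, |(gk act c R (act a v) z (act a y) : ℝ) / R
            - (gk act c R v z y : ℝ) / R| := by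
          rw [Finset.sum_comm]
          exact Finset.sum_congr rfl fun z _ => (Finset.mul_sum _ _ _).symm
      _ ≤ ∑ z ∈ K, |t z| * (4 / R) :=
          Finset.sum_le_sum fun z _ => mul_le_mul_of_nonneg_left (hz z) (abs_nonneg _)
      _ = 4 / R * ∑ z ∈ K, |t z| := by rw [← Finset.sum_mul, mul_comm]
      _ ≤ 4 / R * (1 + 2 * A2) :=
          mul_le_mul_of_nonneg_left (total_variation hℓ hD K t r A2 H2) (by positivity)
  calc _ ≤ ∑ y ∈ S, (|∑ z ∈ K, (t' z - t z) * ((gk act c R (act a v) z (act a y) : ℝ) / R)|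
        + |∑ z ∈ K, t z * ((gk act c R (act a v) z (act a y) : ℝ) / R
            - (gk act c R v z y : ℝ) / R)|) := by
        refine Finset.sum_le_sum fun y _ => ?_
        rw [hsplit]
        exact abs_add_le _ _
    _ ≤ _ := by
        rw [Finset.sum_add_distrib]
        exact add_le_add hfirst hsecond

end Family

end Vale.Agent.LipFree
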