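import Mathlib
import Vale.Agent.LipFree.Core

/-!
# The core inequality for a family of finite sets with moves
-/

namespace Vale.Agent.LipFree

open Finset

section

variable {P : Type*} {G : P → Type*} (s : ∀ p, Fin 4 → Equiv.Perm (G p))

/-- The moves on the disjoint union: the generators and their inverses. -/
def sact (a : Fin 4 × Bool) : Equiv.Perm (Σ p, G p) :=
  Equiv.sigmaCongrRight fun p => if a.2 then s p a.1 else (s p a.1)⁻¹

/-- The inverse letter. -/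
def sinv (a : Fin 4 × Bool) : Fin 4 × Bool := (a.1, !a.2)

theorem sact_inv (a : Fin 4 × Bool) (v : Σ p, G p) : sact s (sinv a) (sact s a v) = v := by
  obtain ⟨i, b⟩ := a
  obtain ⟨p, v⟩ := v
  cases b <;> simp [sact, sinv]

theorem sact_true (i : Fin 4) (p : P) (v : G p) : sact s (i, true) ⟨p, v⟩ = ⟨p, s p i v⟩ := by
  simp [sact]

theorem sact_fst (a : Fin 4 × Bool) (v : Σ p, G p) : (sact s a v).1 = v.1 := by
  simp [sact]

theorem wact_fst (w : List (Fin 4 × Bool)) (v : Σ p, G p) : (wact (sact s) w v).1 = v.1 := by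
  induction w with
  | nil => rfl
  | cons a w ih => rw [wact_cons, sact_fst, ih]

theorem reach_fst {j : ℕ} {v z : Σ p, G p} (h : Reach (sact s) j v z) : z.1 = v.1 := by
  obtain ⟨w, -, rfl⟩ := h
  exact wact_fst s w v

variable {s}

/-- The core inequality. -/
theorem core [Infinite P] [DecidableEq P] [∀ p, Fintype (G p)] [∀ p, Nonempty (G p)]
    {C : Type*} {c : (Σ p, G p) → C} {R : ℕ}
    (hc : ∀ w : List (Fin 4 × Bool), w.length < 2 * R → ∀ y,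
      c (wact (sact s) w y) = c y → wact (sact s) w y = y)
    {A : ℝ} (hA : 0 ≤ A)
    (hiso : ∀ p q, p ≠ q → ∀ f : G p → G q → ℝ, (∀ v y, f v y ≠ 0 → c ⟨p, v⟩ = c ⟨q, y⟩) →
      ∑ v, ∑ y, |f v y| ≤ A * ∑ i : Fin 4, ∑ v, ∑ y, |f (s p i v) (s q i y) - f v y|)
    {ℓ D : ℝ} (hR : 0 < R) (hℓ : 1 ≤ ℓ) (hℓR : ℓ ≤ R) (hD : (R : ℝ) ≤ D)
    (K : Finset (Σ p, G p)) (T : (Σ p, G p) → (Σ p, G p) → ℝ) (A1 A2 : ℝ)
    (H1 : ∀ (v : Σ p, G p) (a : Fin 4 × Bool), ∀ f ∈ testFun (sact s) c R ℓ D,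
      |∑ y ∈ K, (T (sact s a v) y - T v y) * f y| ≤ A1)
    (H2 : ∀ v : Σ p, G p, ∃ r, SameType (sact s) c R v r ∧ ∀ f ∈ testFun (sact s) c R ℓ D,
      |∑ y ∈ K, T v y * f y - f r| ≤ A2) :
    1 - A2 / R ≤ A * (4 * (2 * A1 / ℓ + 4 / R * (1 + 2 * A2))) := by
  classical
  set J : Finset P := K.image Sigma.fst with hJ
  set S : Finset (Σ p, G p) := J.sigma fun _ => Finset.univ with hS
  obtain ⟨p, hp⟩ := Infinite.exists_notMem_finset J
  have hSreach : ∀ y ∈ K, ∀ z j, Reach (sact s) j y z → z ∈ S := by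
    intro y hy z j hr
    rw [hS, Finset.mem_sigma]
    refine ⟨?_, Finset.mem_univ _⟩
    rw [reach_fst s hr, hJ]
    exact Finset.mem_image_of_mem _ hy
  have hR' : (0 : ℝ) < R := Nat.cast_pos.2 hR
  set N : G p → (Σ p, G p) → ℝ := fun v y =>
    ∑ z ∈ K, T ⟨p, v⟩ z * ((gk (sact s) c R ⟨p, v⟩ z y : ℝ) / R) with hN
  have hsupp : ∀ v y, N v y ≠ 0 → c ⟨p, v⟩ = c y := by
    intro v y h
    by_contra hne
    apply h
    simp only [hN]
    refine Finset.sum_eq_zero fun z _ => ?_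
    have h0 : gk (sact s) c R ⟨p, v⟩ z y = 0 := by
      by_contra h0
      exact hne (gk_color h0)
    simp [h0]
  -- lower bound
  have hlower : ∀ v : G p, 1 - A2 / R ≤ ∑ y ∈ S, |N v y| := by
    intro v
    obtain ⟨r, hr, h2⟩ := H2 ⟨p, v⟩
    exact lower (sact_inv s) hc hR (by linarith) hD K S hSreach (T ⟨p, v⟩) ⟨p, v⟩ r A2 hr h2
  -- upper bound
  have hupper : ∀ (v : G p) (i : Fin 4),
      ∑ y ∈ S, |N (s p i v) (sact s (i, true) y) - N v y| ≤ 2 * A1 / ℓ + 4 / R * (1 + 2 * A2) := by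
    intro v i
    obtain ⟨r, hr, h2⟩ := H2 ⟨p, v⟩
    have h1 := H1 ⟨p, v⟩ (i, true)
    have := upper (sact_inv s) hc hR hℓ hℓR (hℓR.trans hD) K S (T ⟨p, v⟩)
      (T (sact s (i, true) ⟨p, v⟩)) ⟨p, v⟩ r (i, true) A1 A2 h1 h2
    rw [sact_true] at this
    exact this
  -- the isoperimetric inequality
  have hq : ∀ q ∈ J, ∑ v, ∑ y, |N v ⟨q, y⟩|
      ≤ A * ∑ i : Fin 4, ∑ v, ∑ y, |N (s p i v) ⟨q, s q i y⟩ - N v ⟨q, y⟩| := by
    intro q hqJ
    have hpq : p ≠ q := fun h => hp (h ▸ hqJ)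
    exact hiso p q hpq (fun v y => N v ⟨q, y⟩) (fun v y h => hsupp v _ h)
  have hsumS : ∀ F : (Σ p, G p) → ℝ, ∑ y ∈ S, F y = ∑ q ∈ J, ∑ y : G q, F ⟨q, y⟩ := by
    intro F
    rw [hS, Finset.sum_sigma]
  have htotal : ∑ v, ∑ y ∈ S, |N v y|
      ≤ A * ∑ i : Fin 4, ∑ v, ∑ y ∈ S, |N (s p i v) (sact s (i, true) y) - N v y| := by
    simp_rw [hsumS, sact_true]
    calc ∑ v, ∑ q ∈ J, ∑ y : G q, |N v ⟨q, y⟩| = ∑ q ∈ J, ∑ v, ∑ y : G q, |N v ⟨q, y⟩| :=
          Finset.sum_comm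
      _ ≤ ∑ q ∈ J, A * ∑ i : Fin 4, ∑ v, ∑ y : G q, |N (s p i v) ⟨q, s q i y⟩ - N v ⟨q, y⟩| :=
          Finset.sum_le_sum hq
      _ = A * ∑ i : Fin 4, ∑ v, ∑ q ∈ J, ∑ y : G q,
            |N (s p i v) ⟨q, s q i y⟩ - N v ⟨q, y⟩| := by
          rw [← Finset.mul_sum, Finset.sum_comm]
          congr 1
          refine Finset.sum_congr rfl fun i _ => ?_
          rw [Finset.sum_comm]
  -- conclusion
  have hcard : (0 : ℝ) < Fintype.card (G p) := Nat.cast_pos.2 Fintype.card_pos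
  have h1 : (Fintype.card (G p) : ℝ) * (1 - A2 / R) ≤ ∑ v, ∑ y ∈ S, |N v y| := by
    calc (Fintype.card (G p) : ℝ) * (1 - A2 / R) = ∑ _v : G p, (1 - A2 / R) := by
          rw [Finset.sum_const, Finset.card_univ, nsmul_eq_mul]
      _ ≤ _ := Finset.sum_le_sum fun v _ => hlower v
  have h2 : ∑ i : Fin 4, ∑ v, ∑ y ∈ S, |N (s p i v) (sact s (i, true) y) - N v y|
      ≤ (Fintype.card (G p) : ℝ) * (4 * (2 * A1 / ℓ + 4 / R * (1 + 2 * A2))) := by
    calc _ ≤ ∑ _i : Fin 4, ∑ _v : G p, (2 * A1 / ℓ + 4 / R * (1 + 2 * A2)) :=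
          Finset.sum_le_sum fun i _ => Finset.sum_le_sum fun v _ => hupper v i
      _ = _ := by
          simp only [Finset.sum_const, Finset.card_univ, nsmul_eq_mul, Fintype.card_fin]
          push_cast
          ring
  have h3 : (Fintype.card (G p) : ℝ) * (1 - A2 / R)
      ≤ (Fintype.card (G p) : ℝ) * (A * (4 * (2 * A1 / ℓ + 4 / R * (1 + 2 * A2)))) := by
    calc _ ≤ _ := h1
      _ ≤ _ := htotal
      _ ≤ A * ((Fintype.card (G p) : ℝ) * (4 * (2 * A1 / ℓ + 4 / R * (1 + 2 * A2)))) :=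
          mul_le_mul_of_nonneg_left h2 hA
      _ = _ := by ring
  exact le_of_mul_le_mul_left h3 hcard

end

end Vale.Agent.LipFree
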