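import Mathlib
import Vale.Agent.LipFree.CoreFamily

/-!
# Colourings which are injective on balls
-/

namespace Vale.Agent.LipFree

open Finset

/-- Greedy colouring. -/
theorem exists_coloring {Y ι : Type*} [Fintype Y] [Fintype ι] (φ : ι → Equiv.Perm Y) :
    ∃ c : Y → Fin (2 * Fintype.card ι + 1), ∀ i y, φ i y ≠ y → c (φ i y) ≠ c y := by
  classical
  have key : ∀ S : Finset Y, ∃ c : Y → Fin (2 * Fintype.card ι + 1),
      ∀ i, ∀ y ∈ S, φ i y ∈ S → φ i y ≠ y → c (φ i y) ≠ c y := by
    intro S
    induction S using Finset.induction_on with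
    | empty => exact ⟨fun _ => 0, fun i y hy => absurd hy (Finset.notMem_empty y)⟩
    | insert a S ha ih =>
      obtain ⟨c, hc⟩ := ih
      -- the forbidden colours
      set bad : Finset (Fin (2 * Fintype.card ι + 1)) :=
        (Finset.univ.image fun i => c (φ i a)) ∪ (Finset.univ.image fun i => c ((φ i).symm a))
        with hbad
      have hcard : bad.card < Fintype.card (Fin (2 * Fintype.card ι + 1)) := by
        have h1 : (Finset.univ.image fun i => c (φ i a)).card ≤ Fintype.card ι :=
          Finset.card_image_le
        have h2 : (Finset.univ.image fun i => c ((φ i).symm a)).card ≤ Fintype.card ι :=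
          Finset.card_image_le
        have h3 : bad.card ≤ (Finset.univ.image fun i => c (φ i a)).card
            + (Finset.univ.image fun i => c ((φ i).symm a)).card :=
          Finset.card_union_le _ _
        rw [Fintype.card_fin]
        omega
      obtain ⟨k, hk⟩ : ∃ k, k ∉ bad := by
        by_contra hcon
        push Not at hcon
        have : bad = Finset.univ := Finset.eq_univ_iff_forall.2 hcon
        rw [this, Finset.card_univ] at hcard
        exact lt_irrefl _ hcard
      refine ⟨Function.update c a k, fun i y hy hy' hne => ?_⟩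
      by_cases h1 : y = a
      · subst h1
        rw [Function.update_self, Function.update_of_ne hne]
        intro h
        apply hk
        rw [hbad, ← h]
        exact Finset.mem_union_left _ (Finset.mem_image_of_mem _ (Finset.mem_univ i))
      · by_cases h2 : φ i y = a
        · rw [h2, Function.update_self, Function.update_of_ne h1]
          intro h
          apply hk
          rw [hbad, h]
          refine Finset.mem_union_right _ (Finset.mem_image.2 ⟨i, Finset.mem_univ i, ?_⟩)
          rw [← h2, Equiv.symm_apply_apply]
        · rw [Function.update_of_ne h2, Function.update_of_ne h1]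
          exact hc i y ((Finset.mem_insert.1 hy).resolve_left h1)
            ((Finset.mem_insert.1 hy').resolve_left h2) hne
  obtain ⟨c, hc⟩ := key Finset.univ
  exact ⟨c, fun i y h => hc i y (Finset.mem_univ _) (Finset.mem_univ _) h⟩

section

variable {P : Type*} {G : P → Type*} (s : ∀ p, Fin 4 → Equiv.Perm (G p))

/-- The permutation of `G p` defined by a word. -/
def wperm (p : P) : List (Fin 4 × Bool) → Equiv.Perm (G p)
  | [] => 1
  | a :: w => (if a.2 then s p a.1 else (s p a.1)⁻¹) * wperm p w

theorem wact_sigma (w : List (Fin 4 × Bool)) (p : P) (v : G p) :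
    wact (sact s) w ⟨p, v⟩ = ⟨p, wperm s p w v⟩ := by
  induction w with
  | nil => rfl
  | cons a w ih =>
    rw [wact_cons, ih]
    obtain ⟨i, b⟩ := a
    cases b <;> simp [sact, wperm]

theorem words_finite (R : ℕ) : Finite {w : List (Fin 4 × Bool) // w.length < 2 * R} :=
  (List.finite_length_lt (Fin 4 × Bool) (2 * R)).to_subtype

/-- There is a colouring with finitely many colours which is injective on balls. -/
theorem exists_ball_coloring [∀ p, Fintype (G p)] (R : ℕ) :
    ∃ (k : ℕ) (c : (Σ p, G p) → Fin k), ∀ w : List (Fin 4 × Bool), w.length < 2 * R →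
      ∀ y, c (wact (sact s) w y) = c y → wact (sact s) w y = y := by
  classical
  have := words_finite R
  have : Fintype {w : List (Fin 4 × Bool) // w.length < 2 * R} := Fintype.ofFinite _
  choose c hc using fun p : P => exists_coloring
    (fun w : {w : List (Fin 4 × Bool) // w.length < 2 * R} => wperm s p w.1)
  refine ⟨_, fun x => c x.1 x.2, ?_⟩
  rintro w hw ⟨p, v⟩ h
  rw [wact_sigma] at h ⊢
  by_contra hne
  refine hc p ⟨w, hw⟩ v (fun h' => hne ?_) h
  simp only at h'
  rw [h']

variable {s}

/-- Representatives of the types. -/
theorem exists_rep {X Λ C : Type*} [Finite Λ] [Finite C] [Nonempty X] (act : Λ → Equiv.Perm X)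
    (c : X → C) (R : ℕ) :
    ∃ (Fs : Finset X) (rep : X → X), ∀ y, rep y ∈ Fs ∧ SameType act c R y (rep y) := by
  classical
  have h1 : Finite {w : List Λ // w.length < 2 * R} :=
    (List.finite_length_lt Λ (2 * R)).to_subtype
  have h2 : Finite ({w : List Λ // w.length < 2 * R} → C) := inferInstance
  set τ : X → ({w : List Λ // w.length < 2 * R} → C) := fun y w => c (wact act w.1 y) with hτ
  have hfin : (Set.range fun t => Function.invFun τ t).Finite := Set.finite_range _
  refine ⟨hfin.toFinset, fun y => Function.invFun τ (τ y), fun y => ⟨?_, ?_⟩⟩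
  · rw [Set.Finite.mem_toFinset]
    exact ⟨τ y, rfl⟩
  · intro w hw
    have h3 : τ (Function.invFun τ (τ y)) = τ y := Function.invFun_eq ⟨y, rfl⟩
    exact (congrFun h3 ⟨w, hw⟩).symm

/-- A colour class of a colouring with `c (φ v) ≠ c v` for a permutation `φ`
has density at most one half. -/
theorem half_density {Y C : Type*} [Fintype Y] [DecidableEq C] (φ : Equiv.Perm Y) (c : Y → C)
    (h : ∀ v, c (φ v) ≠ c v) (a : C) :
    2 * (Finset.univ.filter fun v => c v = a).card ≤ Fintype.card Y := by
  classical
  set S := Finset.univ.filter fun v => c v = a with hS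
  have hdisj : Disjoint S (S.map φ.toEmbedding) := by
    rw [Finset.disjoint_left]
    intro v hv hv'
    rw [Finset.mem_map] at hv'
    obtain ⟨u, hu, rfl⟩ := hv'
    rw [hS, Finset.mem_filter] at hu hv
    exact h u (hv.2.trans hu.2.symm)
  have h1 := Finset.card_union_of_disjoint hdisj
  rw [Finset.card_map] at h1
  have h2 := Finset.card_le_univ (S ∪ S.map φ.toEmbedding)
  omega

end

end Vale.Agent.LipFree
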