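import Mathlib

/-! # The space `Lip₀(M)` -/

namespace Vale.Agent.LipFree

variable (M : Type) [MetricSpace M] (o : M)

/-- The real vector space of Lipschitz functions `f : M → ℝ` with `f o = 0`. -/
def lipSub : Submodule ℝ (M → ℝ) where
  carrier := {f | (∃ K, LipschitzWith K f) ∧ f o = 0}
  add_mem' := by
    rintro f g ⟨⟨K, hK⟩, hf⟩ ⟨⟨L, hL⟩, hg⟩
    exact ⟨⟨K + L, hK.add hL⟩, by simp [hf, hg]⟩
  zero_mem' := ⟨⟨0, LipschitzWith.const 0⟩, rfl⟩
  smul_mem' := by
    rintro c f ⟨⟨K, hK⟩, hf⟩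
    exact ⟨⟨‖c‖₊ * K, (lipschitzWith_smul c).comp hK⟩, by simp [hf]⟩

/-- `Lip₀(M)`: the Lipschitz functions `f : M → ℝ` with `f o = 0`. -/
def Lip0 : Type := ↥(lipSub M o)

noncomputable instance : AddCommGroup (Lip0 M o) := Submodule.addCommGroup (lipSub M o)

noncomputable instance : Module ℝ (Lip0 M o) := Submodule.module (lipSub M o)

variable {M o}

/-- The function `M → ℝ` underlying an element of `Lip₀(M)`. -/
def Lip0.fn (f : Lip0 M o) : M → ℝ := f.1

/-- The norm on `Lip₀(M)` is the best Lipschitz constant. -/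
noncomputable instance : Norm (Lip0 M o) where
  norm f := sInf {K : ℝ | 0 ≤ K ∧ ∀ x y, |f.fn x - f.fn y| ≤ K * dist x y}

end Vale.Agent.LipFree
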