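import Mathlib
import Vale.Agent.LipFree.Lip

/-! # The Lipschitz constant is a norm -/

namespace Vale.Agent.LipFree

variable {M : Type} [MetricSpace M] {o : M}

theorem lip0_nonempty (f : Lip0 M o) :
    {K : ℝ | 0 ≤ K ∧ ∀ x y, |f.fn x - f.fn y| ≤ K * dist x y}.Nonempty := by
  obtain ⟨⟨K, hK⟩, -⟩ := f.2
  exact ⟨K, K.2, fun x y => hK.dist_le_mul x y⟩

theorem lip0_norm_nonneg (f : Lip0 M o) : 0 ≤ ‖f‖ :=
  le_csInf (lip0_nonempty f) (fun _ h => h.1)

theorem lip0_norm_le (f : Lip0 M o) {K : ℝ} (h0 : 0 ≤ K)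
    (hK : ∀ x y, |f.fn x - f.fn y| ≤ K * dist x y) : ‖f‖ ≤ K :=
  csInf_le ⟨0, fun _ h => h.1⟩ ⟨h0, hK⟩

theorem lip0_abs_sub_le (f : Lip0 M o) (x y : M) : |f.fn x - f.fn y| ≤ ‖f‖ * dist x y := by
  rcases eq_or_lt_of_le (dist_nonneg : 0 ≤ dist x y) with h | h
  · have : x = y := dist_eq_zero.1 h.symm
    subst this
    simp
  · rw [← div_le_iff₀ h]
    refine le_csInf (lip0_nonempty f) (fun K hK => ?_)
    rw [div_le_iff₀ h]
    exact hK.2 x y

theorem lip0_core_aux (M : Type) [MetricSpace M] (o : M) : NormedSpace.Core ℝ (Lip0 M o) := by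
  have hsm : ∀ (c : ℝ) (f : Lip0 M o), ‖c • f‖ ≤ ‖c‖ * ‖f‖ := by
    intro c f
    refine lip0_norm_le _ (mul_nonneg (norm_nonneg c) (lip0_norm_nonneg f)) fun x y => ?_
    have h3 : (c • f).fn x - (c • f).fn y = c * (f.fn x - f.fn y) := by
      change c * f.fn x - c * f.fn y = _
      ring
    rw [h3, abs_mul, mul_assoc, Real.norm_eq_abs]
    exact mul_le_mul_of_nonneg_left (lip0_abs_sub_le f x y) (abs_nonneg c)
  refine ⟨⟨lip0_norm_nonneg, fun c f => le_antisymm (hsm c f) ?_, fun f g => ?_⟩, fun f => ⟨?_, ?_⟩⟩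
  · by_cases hc : c = 0
    · subst hc
      rw [norm_zero, zero_mul]
      exact lip0_norm_nonneg _
    · have h1 := hsm c⁻¹ (c • f)
      rw [smul_smul, inv_mul_cancel₀ hc, one_smul, norm_inv] at h1
      have h2 : 0 < ‖c‖ := norm_pos_iff.2 hc
      calc ‖c‖ * ‖f‖ ≤ ‖c‖ * (‖c‖⁻¹ * ‖c • f‖) := mul_le_mul_of_nonneg_left h1 h2.le
        _ = ‖c • f‖ := by
          rw [← mul_assoc, mul_inv_cancel₀ h2.ne', one_mul]
  · refine lip0_norm_le _ (add_nonneg (lip0_norm_nonneg f) (lip0_norm_nonneg g)) fun x y => ?_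
    have h3 : (f + g).fn x - (f + g).fn y = (f.fn x - f.fn y) + (g.fn x - g.fn y) := by
      change (f.fn x + g.fn x) - (f.fn y + g.fn y) = _
      ring
    rw [h3, add_mul]
    exact (abs_add_le _ _).trans (add_le_add (lip0_abs_sub_le f x y) (lip0_abs_sub_le g x y))
  · intro h
    apply Subtype.ext
    funext x
    have h1 := lip0_abs_sub_le f x o
    have h2 : f.fn o = 0 := f.2.2
    rw [h, zero_mul, h2, sub_zero] at h1
    exact abs_nonpos_iff.1 h1
  · intro h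
    subst h
    refine le_antisymm (lip0_norm_le _ le_rfl fun x y => ?_) (lip0_norm_nonneg _)
    change |(0 : ℝ) - 0| ≤ _
    simp

end Vale.Agent.LipFree
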