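import Mathlib
import Vale.Agent.LipFree.Lip
import Vale.Agent.LipFree.LipCore

/-! # Lipschitz-free spaces and the bounded approximation property -/

namespace Vale.Agent.LipFree

section Free

variable (M : Type) [MetricSpace M] (o : M)

theorem lip0_core : NormedSpace.Core ℝ (Lip0 M o) := lip0_core_aux M o

noncomputable instance : NormedAddCommGroup (Lip0 M o) := NormedAddCommGroup.ofCore (lip0_core M o)

noncomputable instance : NormedSpace ℝ (Lip0 M o) := NormedSpace.ofCore (lip0_core M o)

/-- The dual Banach space `Lip₀(M)*` with its usual norm. -/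
def Dual0 : Type := StrongDual ℝ (Lip0 M o)

noncomputable instance : NormedAddCommGroup (Dual0 M o) :=
  ContinuousLinearMap.toNormedAddCommGroup

noncomputable instance : NormedSpace ℝ (Dual0 M o) := ContinuousLinearMap.toNormedSpace

variable {M o} in
/-- The value of the functional `φ ∈ Lip₀(M)*` at `f ∈ Lip₀(M)`. -/
noncomputable def Dual0.apply (φ : Dual0 M o) (f : Lip0 M o) : ℝ := (id φ : StrongDual ℝ (Lip0 M o)) f

/-- The closed linear span in `Lip₀(M)*` of the evaluation functionals `δ_x : f ↦ f x`
(the smallest closed linear subspace containing all `δ_x`, `x ∈ M`). -/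
noncomputable def freeSub : Submodule ℝ (Dual0 M o) :=
  sInf {S | IsClosed (S : Set (Dual0 M o)) ∧ ∀ x, ∃ φ ∈ S, ∀ f, φ.apply f = f.fn x}

/-- The Lipschitz-free space `F(M)`: the closed linear span of the evaluation functionals
in `Lip₀(M)*`, with the norm of `Lip₀(M)*`. -/
def FreeSpace : Type := ↥(freeSub M o)

noncomputable instance : NormedAddCommGroup (FreeSpace M o) :=
  Submodule.normedAddCommGroup (freeSub M o)

noncomputable instance : NormedSpace ℝ (FreeSpace M o) := Submodule.normedSpace (freeSub M o)

end Free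

/-- `M` is uniformly discrete: there is a positive lower bound for the distances between
distinct points. -/
def UniformlyDiscrete (M : Type) [MetricSpace M] : Prop :=
  ∃ δ : ℝ, 0 < δ ∧ ∀ x y : M, x ≠ y → δ ≤ dist x y

/-- The `lam`-bounded approximation property of a real normed space `X`: for every norm-compact
set `C` and every `ε > 0` there is a bounded finite-rank operator `T : X → X` with `‖T‖ ≤ lam`
and `‖T u - u‖ < ε` for all `u ∈ C`. -/
def LambdaBAP (lam : ℝ) (X : Type) [NormedAddCommGroup X] [NormedSpace ℝ X] : Prop :=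
  ∀ C : Set X, IsCompact C → ∀ ε : ℝ, 0 < ε →
    ∃ T : X →L[ℝ] X, FiniteDimensional ℝ (LinearMap.range (T : X →ₗ[ℝ] X)) ∧ ‖T‖ ≤ lam ∧
      ∀ u ∈ C, ‖T u - u‖ < ε

/-- The bounded approximation property: the `lam`-BAP for some finite `lam ≥ 1`. -/
def BAP (X : Type) [NormedAddCommGroup X] [NormedSpace ℝ X] : Prop :=
  ∃ lam : ℝ, 1 ≤ lam ∧ LambdaBAP lam X

end Vale.Agent.LipFree
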