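import Mathlib

/-!
# The metric defined by a family of functions
-/

namespace Vale.Agent.LipFree

/-- A pointwise bounded family of functions containing all indicator functions of points. -/
structure TestFamily (M : Type*) where
  S : Set (M → ℝ)
  D : M → ℝ
  bound : ∀ f ∈ S, ∀ z, |f z| ≤ D z
  ind : ∀ z, (Set.indicator {z} (fun _ => (1 : ℝ))) ∈ S

namespace TestFamily

variable {M : Type*} (F : TestFamily M)

/-- The distance defined by the family. -/
noncomputable def d (z z' : M) : ℝ := ⨆ f : F.S, |f.1 z - f.1 z'|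

theorem abs_sub_le_bound {f : M → ℝ} (hf : f ∈ F.S) (z z' : M) :
    |f z - f z'| ≤ F.D z + F.D z' := by
  have h1 := F.bound f hf z
  have h2 := F.bound f hf z'
  have h3 := abs_sub (f z) (f z')
  linarith

theorem bdd (z z' : M) : BddAbove (Set.range fun f : F.S => |f.1 z - f.1 z'|) :=
  ⟨F.D z + F.D z', by
    rintro _ ⟨f, rfl⟩
    exact F.abs_sub_le_bound f.2 z z'⟩

theorem abs_sub_le_d {f : M → ℝ} (hf : f ∈ F.S) (z z' : M) : |f z - f z'| ≤ F.d z z' :=
  le_ciSup (F.bdd z z') ⟨f, hf⟩

theorem nonempty [Nonempty M] : Nonempty F.S := ⟨⟨_, F.ind (Classical.arbitrary M)⟩⟩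

theorem d_le {z z' : M} {C : ℝ} (h : ∀ f ∈ F.S, |f z - f z'| ≤ C) : F.d z z' ≤ C := by
  haveI : Nonempty M := ⟨z⟩
  haveI := F.nonempty
  exact ciSup_le fun f => h f.1 f.2

theorem one_le_d {z z' : M} (h : z ≠ z') : 1 ≤ F.d z z' := by
  have h1 := F.abs_sub_le_d (F.ind z) z z'
  have h2 : z' ∉ ({z} : Set M) := fun h' => h (by simpa using h'.symm)
  rw [Set.indicator_of_mem (Set.mem_singleton z), Set.indicator_of_notMem h2] at h1
  simpa using h1

/-- The metric space structure. -/
noncomputable def metricSpace : MetricSpace M where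
  dist := F.d
  dist_self z := le_antisymm (F.d_le fun f _ => by simp)
    ((abs_nonneg _).trans (F.abs_sub_le_d (F.ind z) z z))
  dist_comm z z' := by
    refine le_antisymm (F.d_le fun f hf => ?_) (F.d_le fun f hf => ?_)
    · rw [abs_sub_comm]
      exact F.abs_sub_le_d hf z' z
    · rw [abs_sub_comm]
      exact F.abs_sub_le_d hf z z'
  dist_triangle z z' z'' := by
    refine F.d_le fun f hf => ?_
    have h1 := F.abs_sub_le_d hf z z'
    have h2 := F.abs_sub_le_d hf z' z''
    have h3 := abs_sub_le (f z) (f z') (f z'')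
    linarith
  eq_of_dist_eq_zero := by
    intro z z' h
    by_contra hne
    have := F.one_le_d hne
    have h' : F.d z z' = 0 := h
    linarith

end TestFamily

end Vale.Agent.LipFree
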