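import Mathlib

/-!
# The four affine generators

For a commutative ring `A` we consider the four bijections of `A × A`
`(x, y) ↦ (x + 1, y)`, `(x, y) ↦ (x, y + 1)`, `(x, y) ↦ (x + 2 y, y)`, `(x, y) ↦ (x, y + 2 x)`.
-/

namespace Vale.Agent.LipFree

/-- The four affine generators acting on `A × A`. -/
def gen (A : Type*) [CommRing A] : Fin 4 → Equiv.Perm (A × A) := ![
  { toFun := fun z => (z.1 + 1, z.2)
    invFun := fun z => (z.1 - 1, z.2)
    left_inv := fun z => by simp
    right_inv := fun z => by simp },
  { toFun := fun z => (z.1, z.2 + 1)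
    invFun := fun z => (z.1, z.2 - 1)
    left_inv := fun z => by simp
    right_inv := fun z => by simp },
  { toFun := fun z => (z.1 + 2 * z.2, z.2)
    invFun := fun z => (z.1 - 2 * z.2, z.2)
    left_inv := fun z => by simp
    right_inv := fun z => by simp },
  { toFun := fun z => (z.1, z.2 + 2 * z.1)
    invFun := fun z => (z.1, z.2 - 2 * z.1)
    left_inv := fun z => by simp
    right_inv := fun z => by simp }]

end Vale.Agent.LipFree
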