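import Mathlib
import Vale.Agent.LipFree.Gen

/-!
# From the spectral gap to the `ℓ₁` isoperimetric inequality
-/

namespace Vale.Agent.LipFree

open Finset

/-- The uniform spectral gap property with constant `Cg`. -/
def GapProp (Cg : ℝ) : Prop :=
  ∀ (n : ℕ) [NeZero n] (f : ZMod n × ZMod n → ℝ), ∑ z, f z = 0 →
    ∑ z, (f z) ^ 2 ≤ Cg * ∑ i : Fin 4, ∑ z, (f (gen (ZMod n) i z) - f z) ^ 2

/-- The signed square root. -/
noncomputable def ssqrt (a : ℝ) : ℝ := if 0 ≤ a then Real.sqrt a else -Real.sqrt (-a)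

theorem ssqrt_zero : ssqrt 0 = 0 := by simp [ssqrt]

theorem ssqrt_sq (a : ℝ) : (ssqrt a) ^ 2 = |a| := by
  unfold ssqrt
  split_ifs with h
  · rw [Real.sq_sqrt h, abs_of_nonneg h]
  · push Not at h
    rw [neg_sq, Real.sq_sqrt (by linarith), abs_of_neg h]

theorem ssqrt_sub_sq_le (a b : ℝ) : (ssqrt a - ssqrt b) ^ 2 ≤ 2 * |a - b| := by
  have key : ∀ x y : ℝ, 0 ≤ x → 0 ≤ y → (x - y) ^ 2 ≤ 2 * |x ^ 2 - y ^ 2| := by
    intro x y hx hy
    have h1 : |x ^ 2 - y ^ 2| = |x - y| * (x + y) := by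
      rw [sq_sub_sq, abs_mul, abs_of_nonneg (by linarith : 0 ≤ x + y), mul_comm]
    rw [h1, ← sq_abs (x - y)]
    have h2 : |x - y| ≤ x + y := by
      rw [abs_le]
      constructor <;> linarith
    nlinarith [abs_nonneg (x - y)]
  have key2 : ∀ x y : ℝ, 0 ≤ x → 0 ≤ y → (x + y) ^ 2 ≤ 2 * (x ^ 2 + y ^ 2) := by
    intro x y _ _
    nlinarith [sq_nonneg (x - y)]
  unfold ssqrt
  split_ifs with ha hb hb
  · have := key _ _ (Real.sqrt_nonneg a) (Real.sqrt_nonneg b)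
    rwa [Real.sq_sqrt ha, Real.sq_sqrt hb] at this
  · push Not at hb
    have := key2 _ _ (Real.sqrt_nonneg a) (Real.sqrt_nonneg (-b))
    rw [Real.sq_sqrt ha, Real.sq_sqrt (by linarith : 0 ≤ -b)] at this
    rw [abs_of_nonneg (by linarith : 0 ≤ a - b), sub_neg_eq_add]
    linarith
  · push Not at ha
    have := key2 _ _ (Real.sqrt_nonneg (-a)) (Real.sqrt_nonneg b)
    rw [Real.sq_sqrt hb, Real.sq_sqrt (by linarith : 0 ≤ -a)] at this
    rw [abs_of_neg (by linarith : a - b < 0)]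
    have h3 : (-Real.sqrt (-a) - Real.sqrt b) ^ 2 = (Real.sqrt (-a) + Real.sqrt b) ^ 2 := by ring
    rw [h3]
    linarith
  · push Not at ha hb
    have := key _ _ (Real.sqrt_nonneg (-a)) (Real.sqrt_nonneg (-b))
    rw [Real.sq_sqrt (by linarith : 0 ≤ -a), Real.sq_sqrt (by linarith : 0 ≤ -b)] at this
    have h3 : (-Real.sqrt (-a) - -Real.sqrt (-b)) ^ 2 = (Real.sqrt (-a) - Real.sqrt (-b)) ^ 2 := by
      ring
    have h4 : |a - b| = |-a - -b| := by
      rw [← abs_neg]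
      congr 1
      ring
    rw [h3, h4]
    exact this

/-- `ℓ₂` gap implies `ℓ₁` isoperimetry for functions supported on at most half of the set. -/
theorem l1_of_gap {Y : Type*} [Fintype Y] [DecidableEq Y] (s : Fin 4 → Y → Y) {Cg : ℝ}
    (hgap : ∀ f : Y → ℝ, ∑ z, f z = 0 →
      ∑ z, (f z) ^ 2 ≤ Cg * ∑ i : Fin 4, ∑ z, (f (s i z) - f z) ^ 2) (hCg : 0 ≤ Cg)
    (S : Finset Y) (hS : 2 * S.card ≤ Fintype.card Y) (f : Y → ℝ) (hf : ∀ z ∉ S, f z = 0) :
    ∑ z, |f z| ≤ 4 * Cg * ∑ i : Fin 4, ∑ z, |f (s i z) - f z| := by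
  rcases isEmpty_or_nonempty Y with hY | hY
  · simp
  have hcard : (0 : ℝ) < Fintype.card Y := Nat.cast_pos.2 Fintype.card_pos
  set g : Y → ℝ := fun z => ssqrt (f z) with hg
  set m : ℝ := (∑ z, g z) / Fintype.card Y with hm
  have hgS : ∀ z ∉ S, g z = 0 := fun z hz => by rw [hg]; simp only [hf z hz, ssqrt_zero]
  have h1 : ∑ z, (g z - m) = 0 := by
    rw [Finset.sum_sub_distrib, Finset.sum_const, Finset.card_univ, nsmul_eq_mul, hm]
    field_simp
    ring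
  have h2 := hgap (fun z => g z - m) h1
  have h3 : ∑ z, (g z - m) ^ 2 = ∑ z, (g z) ^ 2 - (∑ z, g z) ^ 2 / Fintype.card Y := by
    have : ∀ z, (g z - m) ^ 2 = (g z) ^ 2 - 2 * m * g z + m ^ 2 := fun z => by ring
    simp_rw [this]
    rw [Finset.sum_add_distrib, Finset.sum_sub_distrib, ← Finset.mul_sum, Finset.sum_const,
      Finset.card_univ, nsmul_eq_mul, hm]
    field_simp
    ring
  have h4 : (∑ z, g z) ^ 2 ≤ S.card * ∑ z, (g z) ^ 2 := by
    have h5 : ∑ z, g z = ∑ z ∈ S, g z := by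
      symm
      exact Finset.sum_subset (Finset.subset_univ _) (fun z _ hz => hgS z hz)
    have h6 : ∑ z ∈ S, (g z) ^ 2 ≤ ∑ z, (g z) ^ 2 :=
      Finset.sum_le_sum_of_subset_of_nonneg (Finset.subset_univ _) (fun z _ _ => sq_nonneg _)
    rw [h5]
    exact sq_sum_le_card_mul_sum_sq.trans (mul_le_mul_of_nonneg_left h6 (Nat.cast_nonneg _))
  have hpos : 0 ≤ ∑ z, (g z) ^ 2 := Finset.sum_nonneg fun z _ => sq_nonneg _
  have h7 : (∑ z, g z) ^ 2 / Fintype.card Y ≤ 1 / 2 * ∑ z, (g z) ^ 2 := by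
    rw [div_le_iff₀ hcard]
    have h8 : (S.card : ℝ) ≤ 1 / 2 * Fintype.card Y := by
      have : ((2 * S.card : ℕ) : ℝ) ≤ Fintype.card Y := Nat.cast_le.2 hS
      push_cast at this
      linarith
    calc (∑ z, g z) ^ 2 ≤ S.card * ∑ z, (g z) ^ 2 := h4
      _ ≤ (1 / 2 * Fintype.card Y) * ∑ z, (g z) ^ 2 := mul_le_mul_of_nonneg_right h8 hpos
      _ = _ := by ring
  have h9 : ∑ z, (g z) ^ 2 = ∑ z, |f z| := Finset.sum_congr rfl fun z _ => ssqrt_sq _
  have h10 : ∑ i : Fin 4, ∑ z, ((g (s i z) - m) - (g z - m)) ^ 2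
      ≤ 2 * ∑ i : Fin 4, ∑ z, |f (s i z) - f z| := by
    rw [Finset.mul_sum]
    refine Finset.sum_le_sum fun i _ => ?_
    rw [Finset.mul_sum]
    refine Finset.sum_le_sum fun z _ => ?_
    have : (g (s i z) - m) - (g z - m) = ssqrt (f (s i z)) - ssqrt (f z) := by
      simp only [hg]
      ring
    rw [this]
    exact ssqrt_sub_sq_le _ _
  have h11 : ∑ z, (g z) ^ 2 ≤ 2 * ∑ z, (g z - m) ^ 2 := by
    rw [h3]
    linarith
  calc ∑ z, |f z| = ∑ z, (g z) ^ 2 := h9.symm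
    _ ≤ 2 * ∑ z, (g z - m) ^ 2 := h11
    _ ≤ 2 * (Cg * ∑ i : Fin 4, ∑ z, ((g (s i z) - m) - (g z - m)) ^ 2) :=
        mul_le_mul_of_nonneg_left h2 (by norm_num)
    _ ≤ 2 * (Cg * (2 * ∑ i : Fin 4, ∑ z, |f (s i z) - f z|)) :=
        mul_le_mul_of_nonneg_left (mul_le_mul_of_nonneg_left h10 hCg) (by norm_num)
    _ = _ := by ring

/-- The generators commute with ring homomorphisms. -/
theorem gen_map {A B : Type*} [CommRing A] [CommRing B] (r : A →+* B) (i : Fin 4) (z : A × A) :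
    gen B i (r z.1, r z.2) = (r (gen A i z).1, r (gen A i z).2) := by
  have h2 : r 2 = 2 := map_ofNat r 2
  fin_cases i <;> simp [gen, h2]

/-- Chinese remainder theorem for pairs. -/
noncomputable def crt (p q : ℕ) (h : p.Coprime q) :
    ZMod (p * q) × ZMod (p * q) ≃ (ZMod p × ZMod p) × (ZMod q × ZMod q) :=
  (Equiv.prodCongr (ZMod.chineseRemainder h).toEquiv (ZMod.chineseRemainder h).toEquiv).trans
    (Equiv.prodProdProdComm _ _ _ _)

theorem crt_gen (p q : ℕ) (h : p.Coprime q) (i : Fin 4) (z : ZMod (p * q) × ZMod (p * q)) :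
    crt p q h (gen _ i z) = (gen _ i (crt p q h z).1, gen _ i (crt p q h z).2) := by
  have h1 := gen_map ((RingHom.fst (ZMod p) (ZMod q)).comp
    (ZMod.chineseRemainder h).toRingHom) i z
  have h2 := gen_map ((RingHom.snd (ZMod p) (ZMod q)).comp
    (ZMod.chineseRemainder h).toRingHom) i z
  exact Prod.ext h1.symm h2.symm

/-- The isoperimetric inequality for the product of two coprime pieces. -/
theorem iso_prod {Cg : ℝ} (hCg : 0 ≤ Cg) (hgap : GapProp Cg) (p q : ℕ) [NeZero p] [NeZero q]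
    (h : p.Coprime q)
    (f : ZMod p × ZMod p → ZMod q × ZMod q → ℝ)
    (S : Finset ((ZMod p × ZMod p) × (ZMod q × ZMod q)))
    (hS : 2 * S.card ≤ Fintype.card ((ZMod p × ZMod p) × (ZMod q × ZMod q)))
    (hf : ∀ v y, f v y ≠ 0 → (v, y) ∈ S) :
    ∑ v, ∑ y, |f v y| ≤ 4 * Cg * ∑ i : Fin 4, ∑ v, ∑ y, |f (gen _ i v) (gen _ i y) - f v y| := by
  classical
  have : NeZero (p * q) := ⟨mul_ne_zero (NeZero.ne p) (NeZero.ne q)⟩
  set e := crt p q h with he
  have hgap' : ∀ F : (ZMod p × ZMod p) × (ZMod q × ZMod q) → ℝ, ∑ z, F z = 0 →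
      ∑ z, (F z) ^ 2 ≤ Cg * ∑ i : Fin 4, ∑ z, (F (gen _ i z.1, gen _ i z.2) - F z) ^ 2 := by
    intro F hF
    have h1 : ∑ z, F (e z) = 0 := by rw [Equiv.sum_comp e F]; exact hF
    have h2 := hgap (p * q) (fun z => F (e z)) h1
    rw [Equiv.sum_comp e (fun z => (F z) ^ 2)] at h2
    refine h2.trans (le_of_eq ?_)
    congr 1
    refine Finset.sum_congr rfl fun i _ => ?_
    rw [← Equiv.sum_comp e (fun z => (F (gen _ i z.1, gen _ i z.2) - F z) ^ 2)]
    refine Finset.sum_congr rfl fun z _ => ?_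
    rw [he, crt_gen]
  have h3 := l1_of_gap (fun i (z : (ZMod p × ZMod p) × (ZMod q × ZMod q)) =>
    (gen _ i z.1, gen _ i z.2)) hgap' hCg S hS (fun z => f z.1 z.2) (fun z hz => by
      by_contra hne
      exact hz (hf z.1 z.2 hne))
  simpa only [Fintype.sum_prod_type] using h3

end Vale.Agent.LipFree
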