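import Mathlib
import Vale.Agent.LipFree.Defs

/-!
# From the bounded approximation property to finitely supported transport maps
-/

namespace Vale.Agent.LipFree

open Finset

variable {M : Type} [MetricSpace M] {o : M}

/-- The element of `Lip₀(M)` defined by a `1`-Lipschitz function. -/
noncomputable def mkLip0 (o : M) (f : M → ℝ) (hf : ∀ x y, |f x - f y| ≤ dist x y) : Lip0 M o :=
  ⟨fun x => f x - f o, ⟨1, LipschitzWith.of_dist_le_mul fun x y => by
    simpa [Real.dist_eq] using hf x y⟩, by simp⟩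

theorem mkLip0_norm (f : M → ℝ) (hf : ∀ x y, |f x - f y| ≤ dist x y) :
    ‖mkLip0 o f hf‖ ≤ 1 := by
  refine lip0_norm_le _ zero_le_one fun x y => ?_
  change |(f x - f o) - (f y - f o)| ≤ 1 * dist x y
  simpa using hf x y

/-- The evaluation functional `δ_x`. -/
noncomputable def delta (o : M) (x : M) : StrongDual ℝ (Lip0 M o) :=
  LinearMap.mkContinuous
    { toFun := fun f : Lip0 M o => f.fn x
      map_add' := fun _ _ => rfl
      map_smul' := fun _ _ => rfl } (dist x o) fun f => by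
    have h := lip0_abs_sub_le f x o
    have h2 : f.fn o = 0 := f.2.2
    rw [h2, sub_zero] at h
    rw [mul_comm]
    exact h

theorem delta_apply (x : M) (f : Lip0 M o) : delta o x f = f.fn x := rfl

theorem delta_mkLip0 (x : M) (f : M → ℝ) (hf : ∀ x y, |f x - f y| ≤ dist x y) :
    delta o x (mkLip0 o f hf) = f x - f o := rfl

theorem norm_delta_sub_le (x y : M) : ‖delta o x - delta o y‖ ≤ dist x y := by
  refine ContinuousLinearMap.opNorm_le_bound _ dist_nonneg fun f => ?_
  change |f.fn x - f.fn y| ≤ _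
  rw [mul_comm]
  exact lip0_abs_sub_le f x y

/-- The evaluation functional as an element of the dual space. -/
noncomputable def delta0 (o : M) (x : M) : Dual0 M o := delta o x

theorem delta_mem (x : M) : delta0 o x ∈ freeSub M o := by
  refine Submodule.mem_sInf.2 ?_
  rintro S ⟨-, hS⟩
  obtain ⟨φ, hφ, h⟩ := hS x
  have : φ = delta0 o x := by
    have h' : ∀ f, (id φ : StrongDual ℝ (Lip0 M o)) f = delta o x f := h
    exact ContinuousLinearMap.ext h'
  rw [← this]
  exact hφ

theorem freeSub_le (u : Dual0 M o) (hu : u ∈ freeSub M o) : u ∈ closure ((Submodule.span ℝ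
    (Set.range (delta0 o)) : Submodule ℝ (Dual0 M o)) : Set (Dual0 M o)) := by
  have hu' := Submodule.mem_sInf.1 hu
  exact hu' (Submodule.span ℝ (Set.range (delta0 o)) :
    Submodule ℝ (Dual0 M o)).topologicalClosure
    ⟨Submodule.isClosed_topologicalClosure _, fun x =>
      ⟨delta0 o x, subset_closure (Submodule.subset_span ⟨x, rfl⟩), fun f => rfl⟩⟩

/-- The functional underlying an element of `F(M)`. -/
noncomputable def toDual (u : FreeSpace M o) : StrongDual ℝ (Lip0 M o) := u.1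

theorem norm_toDual (u : FreeSpace M o) : ‖toDual u‖ = ‖u‖ := rfl

theorem toDual_sub (u v : FreeSpace M o) : toDual (u - v) = toDual u - toDual v := rfl

/-- The point `δ_x` of the Lipschitz-free space. -/
noncomputable def dpt (o : M) (x : M) : FreeSpace M o := ⟨delta0 o x, delta_mem x⟩

theorem toDual_dpt (x : M) : toDual (dpt o x) = delta o x := rfl

theorem norm_dpt_sub_le (x y : M) : ‖dpt o x - dpt o y‖ ≤ dist x y := norm_delta_sub_le x y

theorem delta_base : delta o o = 0 := by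
  refine ContinuousLinearMap.ext fun f => ?_
  exact f.2.2

theorem norm_dpt_le (x : M) : ‖dpt o x‖ ≤ dist x o := by
  have h := norm_delta_sub_le (o := o) x o
  rw [delta_base, sub_zero] at h
  exact h

/-- Evaluation of an element of `F(M)` at a `1`-Lipschitz function. -/
theorem abs_apply_le (u : FreeSpace M o) (f : M → ℝ)
    (hf : ∀ x y, |f x - f y| ≤ dist x y) : |toDual u (mkLip0 o f hf)| ≤ ‖u‖ := by
  have h := (toDual u).le_opNorm (mkLip0 o f hf)
  have h2 := mkLip0_norm (o := o) f hf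
  rw [← norm_toDual]
  calc |toDual u (mkLip0 o f hf)| ≤ ‖toDual u‖ * ‖mkLip0 o f hf‖ := h
    _ ≤ ‖toDual u‖ * 1 := mul_le_mul_of_nonneg_left h2 (norm_nonneg _)
    _ = ‖toDual u‖ := by rw [mul_one]

/-- Approximation of elements of `F(M)` by finitely supported elements. -/
theorem exists_finsupp (u : FreeSpace M o) {η : ℝ} (hη : 0 < η) :
    ∃ a : M →₀ ℝ, ∀ (f : M → ℝ) (hf : ∀ x y, |f x - f y| ≤ dist x y),
      |toDual u (mkLip0 o f hf) - a.sum fun y r => r * (f y - f o)| ≤ η := by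
  have hu := freeSub_le u.1 u.2
  obtain ⟨b, hb, hd⟩ := Metric.mem_closure_iff.1 hu η hη
  obtain ⟨a, rfl⟩ := (Finsupp.mem_span_range_iff_exists_finsupp).1 hb
  refine ⟨a, fun f hf => ?_⟩
  rw [dist_eq_norm] at hd
  have hd' : ‖toDual u - a.sum fun i r => r • delta o i‖ < η := hd
  have h1 := (toDual u - a.sum fun i r => r • delta o i).le_opNorm (mkLip0 o f hf)
  have h2 := mkLip0_norm (o := o) f hf
  have h3 : (toDual u - a.sum fun i r => r • delta o i) (mkLip0 o f hf)
      = toDual u (mkLip0 o f hf) - a.sum fun y r => r * (f y - f o) := by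
    rw [sub_apply]
    congr 1
    rw [Finsupp.sum, Finsupp.sum, _root_.sum_apply]
    rfl
  rw [h3] at h1
  calc |toDual u (mkLip0 o f hf) - a.sum fun y r => r * (f y - f o)| ≤ _ := h1
    _ ≤ η * 1 := mul_le_mul hd'.le h2 (norm_nonneg _) hη.le
    _ = η := mul_one η

/-- The reduction. -/
theorem reduce {lam : ℝ} (h : LambdaBAP lam (FreeSpace M o)) (B : Set M) (D : ℝ)
    (hB : ∀ z ∈ B, dist z o ≤ D) (Fs : Finset M) {ε : ℝ} (hε : 0 < ε) :
    ∃ (K : Finset M) (T : M → M → ℝ),
      (∀ f : M → ℝ, (∀ x y, |f x - f y| ≤ dist x y) → ∀ z ∈ B, ∀ z' ∈ B,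
        |∑ y ∈ K, (T z y - T z' y) * f y| ≤ lam * dist z z' + ε) ∧
      (∀ f : M → ℝ, (∀ x y, |f x - f y| ≤ dist x y) → ∀ x ∈ Fs, x ∈ B →
        |∑ y ∈ K, T x y * f y - f x| ≤ ε) := by
  classical
  -- the finite rank operator
  obtain ⟨S, hfin, hS, hSapp⟩ := h ((dpt o) '' (Fs : Set M))
    ((Fs.finite_toSet.image _).isCompact) (ε / 2) (by linarith)
  have hη : 0 < ε / 8 := by linarith
  -- the bounded set in the range
  set Rg := LinearMap.range (S : FreeSpace M o →ₗ[ℝ] FreeSpace M o) with hRg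
  have : FiniteDimensional ℝ Rg := hfin
  have : ProperSpace Rg := FiniteDimensional.proper_real Rg
  set W : Set Rg := (fun z : M => (⟨S (dpt o z), ⟨dpt o z, rfl⟩⟩ : Rg)) '' B with hW
  have hWb : Bornology.IsBounded W := by
    rw [isBounded_iff_forall_norm_le]
    refine ⟨‖S‖ * D, ?_⟩
    rintro _ ⟨z, hz, rfl⟩
    have h1 : ‖dpt o z‖ ≤ D := (norm_dpt_le z).trans (hB z hz)
    calc ‖S (dpt o z)‖ ≤ ‖S‖ * ‖dpt o z‖ := S.le_opNorm _
      _ ≤ ‖S‖ * D := mul_le_mul_of_nonneg_left h1 (norm_nonneg _)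
  have hWt : TotallyBounded W := hWb.isCompact_closure.totallyBounded.subset subset_closure
  obtain ⟨t, htfin, ht⟩ := Metric.totallyBounded_iff.1 hWt (ε / 8) hη
  -- finitely supported approximations
  choose a ha using fun w : Rg => exists_finsupp (o := o) (w : FreeSpace M o) hη
  have hex : ∀ z ∈ B, ∃ w ∈ t, ‖S (dpt o z) - w‖ < ε / 8 := by
    intro z hz
    have hz' : (⟨S (dpt o z), ⟨dpt o z, rfl⟩⟩ : Rg) ∈ W := ⟨z, hz, rfl⟩
    have := ht hz'
    simp only [Set.mem_iUnion, Metric.mem_ball, exists_prop] at this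
    obtain ⟨w, hw, hd⟩ := this
    refine ⟨w, hw, ?_⟩
    rw [dist_eq_norm] at hd
    exact hd
  -- choice of the approximation
  have hex' : ∀ z : M, ∃ w : Rg, z ∈ B → w ∈ t ∧ ‖S (dpt o z) - w‖ < ε / 8 := by
    intro z
    by_cases hz : z ∈ B
    · obtain ⟨w, hw, hd⟩ := hex z hz
      exact ⟨w, fun _ => ⟨hw, hd⟩⟩
    · exact ⟨0, fun h => absurd h hz⟩
  choose w hw using hex'
  set K : Finset M := insert o (htfin.toFinset.biUnion fun w => (a w).support) with hK
  have hoK : o ∈ K := by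
    rw [hK]
    exact Finset.mem_insert_self _ _
  set T : M → M → ℝ := fun z y =>
    a (w z) y + if y = o then 1 - ∑ x ∈ K, a (w z) x else 0 with hT
  have hsum : ∀ (z : M), ∀ f : M → ℝ, ∑ y ∈ K, T z y * f y
      = f o + ∑ y ∈ K, a (w z) y * (f y - f o) := by
    intro z f
    simp only [hT, add_mul, ite_mul, zero_mul, Finset.sum_add_distrib]
    rw [Finset.sum_ite_eq' K o, if_pos hoK]
    simp only [mul_sub, Finset.sum_sub_distrib]
    rw [← Finset.sum_mul]
    ring
  have hsub : ∀ z ∈ B, (a (w z)).support ⊆ K := by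
    intro z hz y hy
    rw [hK]
    refine Finset.mem_insert_of_mem (Finset.mem_biUnion.2 ⟨w z, ?_, hy⟩)
    rw [Set.Finite.mem_toFinset]
    exact (hw z hz).1
  have happ : ∀ z ∈ B, ∀ (f : M → ℝ) (hf : ∀ x y, |f x - f y| ≤ dist x y),
      |toDual (S (dpt o z)) (mkLip0 o f hf) - ∑ y ∈ K, a (w z) y * (f y - f o)| ≤ ε / 4 := by
    intro z hz f hf
    have h1 : |toDual (S (dpt o z) - (w z : FreeSpace M o)) (mkLip0 o f hf)| ≤ ε / 8 :=
      (abs_apply_le _ f hf).trans (hw z hz).2.le
    have h2 := ha (w z) f hf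
    have h3 : ((a (w z)).sum fun y r => r * (f y - f o))
        = ∑ y ∈ K, a (w z) y * (f y - f o) :=
      Finsupp.sum_of_support_subset _ (hsub z hz) _ (by simp)
    rw [h3] at h2
    rw [toDual_sub, sub_apply] at h1
    rw [abs_le] at h1 h2 ⊢
    constructor <;> linarith [h1.1, h1.2, h2.1, h2.2]
  refine ⟨K, T, ?_, ?_⟩
  · intro f hf z hz z' hz'
    have h0 : ∑ y ∈ K, (T z y - T z' y) * f y = ∑ y ∈ K, T z y * f y - ∑ y ∈ K, T z' y * f y := by
      simp only [sub_mul, Finset.sum_sub_distrib]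
    rw [h0, hsum, hsum]
    have h1 := happ z hz f hf
    have h2 := happ z' hz' f hf
    have h3 : |toDual (S (dpt o z) - S (dpt o z')) (mkLip0 o f hf)| ≤ lam * dist z z' := by
      refine (abs_apply_le _ f hf).trans ?_
      have h5 : S (dpt o z) - S (dpt o z') = S (dpt o z - dpt o z') := (S.map_sub _ _).symm
      rw [h5]
      calc ‖S (dpt o z - dpt o z')‖ ≤ ‖S‖ * ‖dpt o z - dpt o z'‖ := S.le_opNorm _
        _ ≤ lam * dist z z' :=
          mul_le_mul hS (norm_dpt_sub_le z z') (norm_nonneg (dpt o z - dpt o z'))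
            ((norm_nonneg S).trans hS)
    rw [toDual_sub, sub_apply] at h3
    rw [abs_le] at h1 h2 h3 ⊢
    constructor <;> linarith [h1.1, h1.2, h2.1, h2.2, h3.1, h3.2]
  · intro f hf x hx hxB
    rw [hsum]
    have h1 := happ x hxB f hf
    have h2 : |toDual (S (dpt o x) - dpt o x) (mkLip0 o f hf)| ≤ ε / 2 :=
      (abs_apply_le _ f hf).trans (hSapp _ ⟨x, hx, rfl⟩).le
    rw [toDual_sub, sub_apply, toDual_dpt, delta_mkLip0] at h2
    rw [abs_le] at h1 h2 ⊢
    constructor <;> linarith [h1.1, h1.2, h2.1, h2.2]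

end Vale.Agent.LipFree
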