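import Mathlib
import Vale.Agent.LipFree.Defs
import Vale.Agent.LipFree.Reduce
import Vale.Agent.LipFree.Coloring
import Vale.Agent.LipFree.CoreFamily
import Vale.Agent.LipFree.FamMetric
import Vale.Agent.LipFree.Iso

/-!
# The uniformly discrete metric space whose Lipschitz-free space fails the BAP
-/

namespace Vale.Agent.LipFree

open Finset

/-- The pieces: `(ZMod p)²` for primes `p`. -/
abbrev Piece (p : Nat.Primes) : Type := ZMod (p : ℕ) × ZMod (p : ℕ)

noncomputable instance instNeZeroPrime (p : Nat.Primes) : NeZero (p : ℕ) := ⟨p.2.ne_zero⟩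

/-- The generators on the pieces. -/
def sgen (p : Nat.Primes) : Fin 4 → Equiv.Perm (Piece p) := gen (ZMod (p : ℕ))

/-- The disjoint union of the pieces. -/
abbrev XX : Type := Σ p : Nat.Primes, Piece p

/-- The colouring with parameter `R`. -/
noncomputable def numCol (R : ℕ) : ℕ := (exists_ball_coloring sgen R).choose

noncomputable def col (R : ℕ) : XX → Fin (numCol R) :=
  (exists_ball_coloring sgen R).choose_spec.choose

theorem col_spec (R : ℕ) : ∀ w : List (Fin 4 × Bool), w.length < 2 * R →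
    ∀ y, col R (wact (sact sgen) w y) = col R y → wact (sact sgen) w y = y :=
  (exists_ball_coloring sgen R).choose_spec.choose_spec

/-- Translations have no fixed points. -/
theorem gen_zero_ne (p : Nat.Primes) (v : Piece p) : sgen p 0 v ≠ v := by
  intro h
  have h1 := congrArg Prod.fst h
  have : Fact (1 < (p : ℕ)) := ⟨p.2.one_lt⟩
  simp [sgen, gen] at h1

/-- Consecutive points have different colours. -/
theorem col_ne {R : ℕ} (hR : 0 < R) (p : Nat.Primes) (v : Piece p) :
    col R ⟨p, sgen p 0 v⟩ ≠ col R ⟨p, v⟩ := by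
  intro h
  have h1 := col_spec R [((0 : Fin 4), true)] (by simp; omega) ⟨p, v⟩
  rw [wact_cons, wact_nil, sact_true] at h1
  have h2 := h1 h
  rw [Sigma.mk.injEq] at h2
  exact gen_zero_ne p v (eq_of_heq h2.2)

/-- The isoperimetric inequality in the form needed. -/
theorem hiso {Cg : ℝ} (hCg : 0 ≤ Cg) (hgap : GapProp Cg) {R : ℕ} (hR : 0 < R) :
    ∀ p q : Nat.Primes, p ≠ q → ∀ f : Piece p → Piece q → ℝ,
      (∀ v y, f v y ≠ 0 → col R ⟨p, v⟩ = col R ⟨q, y⟩) →
      ∑ v, ∑ y, |f v y| ≤ 4 * Cg * ∑ i : Fin 4, ∑ v, ∑ y,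
        |f (sgen p i v) (sgen q i y) - f v y| := by
  classical
  intro p q hpq f hf
  have hcop : (p : ℕ).Coprime q :=
    (Nat.coprime_primes p.2 q.2).2 fun h => hpq (Subtype.ext h)
  refine iso_prod hCg hgap p q hcop f
    (Finset.univ.filter fun z => col R ⟨p, z.1⟩ = col R ⟨q, z.2⟩) ?_ ?_
  · have h1 : (Finset.univ.filter fun z : Piece p × Piece q =>
        col R ⟨p, z.1⟩ = col R ⟨q, z.2⟩).card
        = ∑ y : Piece q, (Finset.univ.filter fun v : Piece p =>
          col R ⟨p, v⟩ = col R ⟨q, y⟩).card := by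
      rw [Finset.card_filter, Fintype.sum_prod_type_right]
      refine Finset.sum_congr rfl fun y _ => ?_
      rw [Finset.card_filter]
    rw [h1, Finset.mul_sum]
    calc _ ≤ ∑ _y : Piece q, Fintype.card (Piece p) :=
          Finset.sum_le_sum fun y _ => half_density (sgen p 0) (fun v => col R ⟨p, v⟩)
            (fun v => col_ne hR p v) _
      _ = _ := by
          rw [Finset.sum_const, Finset.card_univ, smul_eq_mul, Fintype.card_prod (Piece p) (Piece q),
            mul_comm]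
  · intro v y h
    rw [Finset.mem_filter]
    exact ⟨Finset.mem_univ _, hf v y h⟩

section Space

variable (A : ℕ)

/-- the lengths -/
def ell (j : ℕ) : ℕ := 160 * (A + 1) * (j + 1)

/-- the radii -/
def rad (j : ℕ) : ℕ := 320 * (A + 1) * (1 + 2 * (j * ell A j + 2))

theorem ell_pos (j : ℕ) : 1 ≤ ell A j := by
  unfold ell
  have : 0 < 160 * (A + 1) * (j + 1) := by positivity
  omega

theorem rad_pos (j : ℕ) : 0 < rad A j := by
  unfold rad
  positivity

theorem ell_le_rad (j : ℕ) : ell A j ≤ rad A j := by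
  have h0 := ell_pos A j
  rcases Nat.eq_zero_or_pos j with rfl | hj
  · unfold ell rad
    nlinarith
  · unfold rad
    have h1 : ell A j ≤ j * ell A j := Nat.le_mul_of_pos_left _ hj
    have h2 : 1 + 2 * (j * ell A j + 2) ≤ 320 * (A + 1) * (1 + 2 * (j * ell A j + 2)) :=
      Nat.le_mul_of_pos_left _ (by positivity)
    omega

/-- The set of points of the counterexample. -/
structure Pt (A : ℕ) : Type where
  /-- the number of the copy -/
  idx : ℕ
  /-- the point in the copy -/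
  pt : XX

/-- The test functions on copy `j`. -/
def tf (j : ℕ) : Set (XX → ℝ) :=
  testFun (sact sgen) (col (rad A j)) (rad A j) (ell A j : ℝ) (rad A j : ℝ)

open Classical in
/-- The family of test functions. -/
noncomputable def family : TestFamily (Pt A) where
  S := {f | ∀ j, (fun x => f ⟨j, x⟩) ∈ tf A j}
  D := fun z => rad A z.idx
  bound := fun f hf z => (hf z.idx).1 z.pt
  ind := by
    intro z j
    have h1 : ∀ x, |(Set.indicator ({z} : Set (Pt A)) (fun _ => (1 : ℝ))) ⟨j, x⟩| ≤ 1 := by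
      intro x
      rw [Set.indicator_apply]
      split_ifs <;> simp
    have h2 : ∀ x x', |(Set.indicator ({z} : Set (Pt A)) (fun _ => (1 : ℝ))) ⟨j, x⟩ -
        (Set.indicator ({z} : Set (Pt A)) (fun _ => (1 : ℝ))) ⟨j, x'⟩| ≤ 1 := by
      intro x x'
      rw [Set.indicator_apply, Set.indicator_apply]
      split_ifs <;> simp
    have h3 : (1 : ℝ) ≤ rad A j := by exact_mod_cast rad_pos A j
    have h4 : (1 : ℝ) ≤ ell A j := by exact_mod_cast ell_pos A j
    exact ⟨fun x => (h1 x).trans h3, fun a x => h2 _ _, fun x x' _ => (h2 _ _).trans h4⟩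

noncomputable instance : MetricSpace (Pt A) := (family A).metricSpace

/-- A base point. -/
def base : Pt A := ⟨0, ⟨⟨2, Nat.prime_two⟩, (0, 0)⟩⟩

theorem countable_Pt : Countable (Pt A) := by
  have hinj : Function.Injective fun z : Pt A => (z.idx, z.pt) := by
    rintro ⟨i, x⟩ ⟨i', x'⟩ h
    simp only [Prod.mk.injEq] at h
    rw [h.1, h.2]
  have h1 : ∀ p : Nat.Primes, Countable (Piece p) := fun p => by
    have : Fintype (ZMod (p : ℕ)) := ZMod.fintype _
    exact Finite.to_countable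
  exact hinj.countable

theorem dist_def (z z' : Pt A) : dist z z' = (family A).d z z' := rfl

/-- Extension of a test function on copy `j` by zero. -/
noncomputable def ext (j : ℕ) (f : XX → ℝ) : Pt A → ℝ := fun z => if z.idx = j then f z.pt else 0

theorem ext_mem {j : ℕ} {f : XX → ℝ} (hf : f ∈ tf A j) : ext A j f ∈ (family A).S := by
  intro i
  by_cases h : i = j
  · subst h
    simpa [ext] using hf
  · have h0 : (fun x => ext A j f ⟨i, x⟩) = fun _ => (0 : ℝ) := by
      funext x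
      simp [ext, h]
    rw [h0]
    refine ⟨fun y => ?_, fun a y => ?_, fun y y' _ => ?_⟩ <;> simp

theorem ext_lip {j : ℕ} {f : XX → ℝ} (hf : f ∈ tf A j) (z z' : Pt A) :
    |ext A j f z - ext A j f z'| ≤ dist z z' :=
  (family A).abs_sub_le_d (ext_mem A hf) z z'

theorem dist_act_le (j : ℕ) (a : Fin 4 × Bool) (v : XX) :
    dist (⟨j, sact sgen a v⟩ : Pt A) (⟨j, v⟩ : Pt A) ≤ 1 := by
  rw [dist_comm]
  exact (family A).d_le fun f hf => (hf j).2.1 a v

theorem dist_type_le (j : ℕ) {v r : XX}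
    (h : SameType (sact sgen) (col (rad A j)) (rad A j) v r) :
    dist (⟨j, v⟩ : Pt A) (⟨j, r⟩ : Pt A) ≤ ell A j :=
  (family A).d_le fun f hf => (hf j).2.2 v r h

theorem uniformlyDiscrete : UniformlyDiscrete (Pt A) :=
  ⟨1, one_pos, fun _ _ h => (family A).one_le_d h⟩

/-- The main result, given the spectral gap. -/
theorem not_bap (hgap : GapProp A) (o : Pt A) : ¬ BAP (FreeSpace (Pt A) o) := by
  classical
  rintro ⟨lam, hlam1, hlam⟩
  obtain ⟨j, hj⟩ := exists_nat_ge lam
  set R := rad A j with hR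
  set ℓ := ell A j with hℓ
  have hne : Nonempty XX := ⟨⟨⟨2, Nat.prime_two⟩, (0, 0)⟩⟩
  obtain ⟨Fs, rep, hrep⟩ := exists_rep (sact sgen) (col R) R
  -- the reduction
  obtain ⟨K, T, hT1, hT2⟩ := reduce hlam {z : Pt A | z.idx = j} (rad A j + rad A o.idx)
    (fun z hz => by
      have h1 : dist z o ≤ (family A).D z + (family A).D o :=
        (family A).d_le fun f hf => (family A).abs_sub_le_bound hf z o
      have h2 : (family A).D z = rad A j := by
        change ((rad A z.idx : ℕ) : ℝ) = _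
        rw [show z.idx = j from hz]
      rw [h2] at h1
      exact h1) (Fs.image fun x => (⟨j, x⟩ : Pt A)) one_pos
  set K' : Finset XX := (K.filter fun z => z.idx = j).image Pt.pt with hK'
  set T' : XX → XX → ℝ := fun v y => T ⟨j, v⟩ ⟨j, y⟩ with hT'
  -- sums over `K` and `K'`
  have hsum : ∀ (t : Pt A → ℝ) (f : XX → ℝ),
      ∑ y ∈ K', t ⟨j, y⟩ * f y = ∑ z ∈ K, t z * ext A j f z := by
    intro t f
    rw [hK', Finset.sum_image, Finset.sum_filter]
    · refine Finset.sum_congr rfl fun z _ => ?_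
      by_cases h : z.idx = j
      · have hz : (⟨j, z.pt⟩ : Pt A) = z := by
          rw [← h]
        rw [if_pos h, hz]
        simp [ext, h]
      · rw [if_neg h]
        simp [ext, h]
    · intro z hz z' hz' h
      simp only [Finset.coe_filter, Set.mem_ofPred_eq] at hz hz'
      obtain ⟨i, x⟩ := z
      obtain ⟨i', x'⟩ := z'
      simp only at hz hz' h
      rw [hz.2, hz'.2, h]
  have hRpos : (0 : ℝ) < R := Nat.cast_pos.2 (rad_pos A j)
  have hℓ1 : (1 : ℝ) ≤ ℓ := by exact_mod_cast ell_pos A j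
  have hℓR : (ℓ : ℝ) ≤ R := by exact_mod_cast ell_le_rad A j
  have hlam0 : 0 ≤ lam := by linarith
  have H1 : ∀ (v : XX) (a : Fin 4 × Bool), ∀ f ∈ tf A j,
      |∑ y ∈ K', (T' (sact sgen a v) y - T' v y) * f y| ≤ (j : ℝ) + 1 := by
    intro v a f hf
    have h := hT1 (ext A j f) (ext_lip A hf) ⟨j, sact sgen a v⟩ rfl ⟨j, v⟩ rfl
    have h2 := hsum (fun z => T ⟨j, sact sgen a v⟩ z - T ⟨j, v⟩ z) f
    rw [← h2] at h
    refine h.trans ?_
    have h3 := dist_act_le A j a v
    have h4 : lam * dist (⟨j, sact sgen a v⟩ : Pt A) (⟨j, v⟩ : Pt A) ≤ lam * 1 :=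
      mul_le_mul_of_nonneg_left h3 hlam0
    linarith
  have H2 : ∀ v : XX, ∃ r, SameType (sact sgen) (col R) R v r ∧ ∀ f ∈ tf A j,
      |∑ y ∈ K', T' v y * f y - f r| ≤ (j : ℝ) * ℓ + 2 := by
    intro v
    refine ⟨rep v, (hrep v).2, fun f hf => ?_⟩
    have h := hT1 (ext A j f) (ext_lip A hf) ⟨j, v⟩ rfl ⟨j, rep v⟩ rfl
    have h' := hT2 (ext A j f) (ext_lip A hf) ⟨j, rep v⟩
      (Finset.mem_image_of_mem _ (hrep v).1) rfl
    have h2 := hsum (fun z => T ⟨j, v⟩ z - T ⟨j, rep v⟩ z) f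
    have h3 := hsum (fun z => T ⟨j, v⟩ z) f
    have h3' := hsum (fun z => T ⟨j, rep v⟩ z) f
    have h5 : ext A j f ⟨j, rep v⟩ = f (rep v) := by simp [ext]
    rw [← h2] at h
    rw [← h3', h5] at h'
    have h4 : lam * dist (⟨j, v⟩ : Pt A) (⟨j, rep v⟩ : Pt A) ≤ (j : ℝ) * ℓ :=
      mul_le_mul hj (dist_type_le A j (hrep v).2) dist_nonneg (Nat.cast_nonneg _)
    have h6 : ∑ y ∈ K', T' v y * f y - f (rep v)
        = ∑ y ∈ K', (T ⟨j, v⟩ ⟨j, y⟩ - T ⟨j, rep v⟩ ⟨j, y⟩) * f y
          + (∑ y ∈ K', T ⟨j, rep v⟩ ⟨j, y⟩ * f y - f (rep v)) := by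
      simp only [hT', sub_mul, Finset.sum_sub_distrib]
      ring
    rw [h6]
    refine (abs_add_le _ _).trans ?_
    linarith
  have hcore := core (s := sgen) (c := col R) (R := R) (col_spec R)
    (A := 4 * (A : ℝ)) (by positivity) (hiso (Nat.cast_nonneg A) hgap (rad_pos A j))
    (ℓ := (ℓ : ℝ)) (D := (R : ℝ)) (rad_pos A j) hℓ1 hℓR le_rfl K' T' _ _ H1 H2
  -- numerical contradiction
  have hA0 : (0 : ℝ) ≤ A := Nat.cast_nonneg A
  have hj0 : (0 : ℝ) ≤ j := Nat.cast_nonneg j
  have hℓeq : (ℓ : ℝ) = 160 * (A + 1) * (j + 1) := by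
    rw [hℓ]
    unfold ell
    push_cast
    ring
  have hReq : (R : ℝ) = 320 * (A + 1) * (1 + 2 * (j * ℓ + 2)) := by
    rw [hR, hℓ]
    unfold rad
    push_cast
    ring
  have hx0 : (0 : ℝ) ≤ j * ℓ := by positivity
  have ha : ((j : ℝ) * ℓ + 2) / R ≤ 1 / 5 := by
    rw [div_le_iff₀ hRpos, hReq]
    generalize (j : ℝ) * (ℓ : ℝ) = x at hx0
    have h1 := mul_nonneg hA0 hx0
    linarith
  have hb : 2 * ((j : ℝ) + 1) / ℓ = 1 / (80 * (A + 1)) := by
    rw [hℓeq]
    field_simp
    ring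
  have hc' : 4 / (R : ℝ) * (1 + 2 * (j * ℓ + 2)) = 1 / (80 * (A + 1)) := by
    rw [hReq]
    have : (1 + 2 * ((j : ℝ) * ℓ + 2)) ≠ 0 := by positivity
    field_simp
    ring
  rw [hb, hc'] at hcore
  have hd : 4 * (A : ℝ) * (4 * (1 / (80 * (A + 1)) + 1 / (80 * (A + 1)))) ≤ 2 / 5 := by
    have h1 : 4 * (A : ℝ) * (4 * (1 / (80 * (A + 1)) + 1 / (80 * (A + 1))))
        = 2 / 5 * (A / (A + 1)) := by
      field_simp
      ring
    have h2 : (A : ℝ) / (A + 1) ≤ 1 := by
      rw [div_le_one (by linarith)]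
      linarith
    rw [h1]
    linarith
  linarith

end Space

end Vale.Agent.LipFree
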