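import Vale.Agent.LipFree.Gen

/-!
# A uniform spectral gap for the affine generators on `(ℤ/n)²`
-/

namespace Vale.Agent.LipFree

open Finset

section abstract_part

variable {X : Type*} [Fintype X]

/-- Change of the mass of squares under a permutation. -/
theorem sum_abs_sq_sub_le (s : Equiv.Perm X) (a : X → ℝ) :
    ∑ x, |a (s x) ^ 2 - a x ^ 2| ≤ 20 * ∑ x, (a (s x) - a x) ^ 2 + (∑ x, a x ^ 2) / 20 := by
  have h1 : ∀ x, |a (s x) ^ 2 - a x ^ 2| ≤
      20 * (a (s x) - a x) ^ 2 + (a (s x) ^ 2 + a x ^ 2) / 40 := by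
    intro x
    set p := a (s x)
    set q := a x
    rw [abs_le]
    constructor
    · nlinarith [sq_nonneg (40 * (p - q) + (p + q)), sq_nonneg (p - q)]
    · nlinarith [sq_nonneg (40 * (p - q) - (p + q)), sq_nonneg (p - q)]
  calc ∑ x, |a (s x) ^ 2 - a x ^ 2|
      ≤ ∑ x, (20 * (a (s x) - a x) ^ 2 + (a (s x) ^ 2 + a x ^ 2) / 40) :=
        Finset.sum_le_sum fun x _ => h1 x
    _ = 20 * ∑ x, (a (s x) - a x) ^ 2 + ((∑ x, a (s x) ^ 2) + ∑ x, a x ^ 2) / 40 := by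
        rw [Finset.sum_add_distrib, ← Finset.mul_sum, ← Finset.sum_div, Finset.sum_add_distrib]
    _ = _ := by
        rw [Equiv.sum_comp s (fun x => a x ^ 2)]
        ring

theorem sum_le_image [DecidableEq X] (s : Equiv.Perm X) (μ : X → ℝ) (hμ : ∀ x, 0 ≤ μ x)
    (S B : Finset X) (h : ∀ z ∈ S, s z ∈ B) :
    ∑ z ∈ S, μ z ≤ ∑ z ∈ B, μ z + ∑ x, |μ (s x) - μ x| := by
  have h1 : ∑ z ∈ S, μ (s z) ≤ ∑ z ∈ B, μ z := by
    have e1 : ∑ z ∈ S, μ (s z) = ∑ z ∈ S.map s.toEmbedding, μ z := by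
      rw [Finset.sum_map]; rfl
    rw [e1]
    apply Finset.sum_le_sum_of_subset_of_nonneg
    · intro y hy
      rw [Finset.mem_map] at hy
      obtain ⟨z, hz, rfl⟩ := hy
      exact h z hz
    · intro i _ _; exact hμ i
  have h2 : ∑ z ∈ S, μ z - ∑ z ∈ S, μ (s z) ≤ ∑ x, |μ (s x) - μ x| := by
    rw [← Finset.sum_sub_distrib]
    calc ∑ z ∈ S, (μ z - μ (s z)) ≤ ∑ z ∈ S, |μ (s z) - μ z| := by
          apply Finset.sum_le_sum
          intro z _
          rw [abs_sub_comm]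
          exact le_abs_self _
      _ ≤ _ := Finset.sum_le_sum_of_subset_of_nonneg (Finset.subset_univ S)
          (fun i _ _ => abs_nonneg _)
  linarith

theorem sum_abs_symm (s : Equiv.Perm X) (μ : X → ℝ) :
    ∑ x, |μ (s.symm x) - μ x| = ∑ x, |μ (s x) - μ x| := by
  rw [← Equiv.sum_comp s (fun x => |μ (s.symm x) - μ x|)]
  apply Finset.sum_congr rfl
  intro x _
  rw [Equiv.symm_apply_apply, abs_sub_comm]

theorem two_sum_le_image [DecidableEq X] (s : Equiv.Perm X) (μ : X → ℝ) (hμ : ∀ x, 0 ≤ μ x)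
    (S B : Finset X) (h : ∀ z ∈ S, s z ∈ B) (h' : ∀ z ∈ S, s.symm z ∈ B)
    (hd : ∀ z ∈ S, ∀ w ∈ S, s z ≠ s.symm w) :
    2 * ∑ z ∈ S, μ z ≤ ∑ z ∈ B, μ z + 2 * ∑ x, |μ (s x) - μ x| := by
  have h1 : ∑ z ∈ S, μ (s z) + ∑ z ∈ S, μ (s.symm z) ≤ ∑ z ∈ B, μ z := by
    have e1 : ∑ z ∈ S, μ (s z) = ∑ z ∈ S.map s.toEmbedding, μ z := by
      rw [Finset.sum_map]; rfl
    have e2 : ∑ z ∈ S, μ (s.symm z) = ∑ z ∈ S.map s.symm.toEmbedding, μ z := by
      rw [Finset.sum_map]; rfl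
    have hdisj : Disjoint (S.map s.toEmbedding) (S.map s.symm.toEmbedding) := by
      rw [Finset.disjoint_left]
      intro y hy hy'
      rw [Finset.mem_map] at hy hy'
      obtain ⟨z, hz, rfl⟩ := hy
      obtain ⟨w, hw, hzw⟩ := hy'
      exact hd z hz w hw hzw.symm
    rw [e1, e2, ← Finset.sum_union hdisj]
    apply Finset.sum_le_sum_of_subset_of_nonneg
    · intro y hy
      rw [Finset.mem_union, Finset.mem_map, Finset.mem_map] at hy
      rcases hy with ⟨z, hz, rfl⟩ | ⟨z, hz, rfl⟩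
      · exact h z hz
      · exact h' z hz
    · intro i _ _; exact hμ i
  have key : ∀ t : Equiv.Perm X, ∑ z ∈ S, μ z - ∑ z ∈ S, μ (t z) ≤ ∑ x, |μ (t x) - μ x| := by
    intro t
    rw [← Finset.sum_sub_distrib]
    calc ∑ z ∈ S, (μ z - μ (t z)) ≤ ∑ z ∈ S, |μ (t z) - μ z| := by
          apply Finset.sum_le_sum
          intro z _
          rw [abs_sub_comm]
          exact le_abs_self _
      _ ≤ _ := Finset.sum_le_sum_of_subset_of_nonneg (Finset.subset_univ S)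
          (fun i _ _ => abs_nonneg _)
  have k1 := key s
  have k2 := key s.symm
  rw [sum_abs_symm] at k2
  linarith

end abstract_part

section regions

variable {n : ℕ} [NeZero n]

theorem valMinAbs_add_two {x y : ZMod n} (hx : 8 * |x.valMinAbs| < n) (hy : 8 * |y.valMinAbs| < n) :
    (y + 2 * x).valMinAbs = y.valMinAbs + 2 * x.valMinAbs := by
  rw [ZMod.valMinAbs_spec]
  constructor
  · push_cast
    rfl
  · rw [Set.mem_Ioc]
    have h1 := abs_lt.1 (show |x.valMinAbs| < |x.valMinAbs| + 1 by linarith)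
    have h2 := neg_abs_le x.valMinAbs
    have h3 := le_abs_self x.valMinAbs
    have h4 := neg_abs_le y.valMinAbs
    have h5 := le_abs_self y.valMinAbs
    constructor <;> linarith

theorem valMinAbs_sub_two {x y : ZMod n} (hx : 8 * |x.valMinAbs| < n) (hy : 8 * |y.valMinAbs| < n) :
    (y - 2 * x).valMinAbs = y.valMinAbs - 2 * x.valMinAbs := by
  rw [ZMod.valMinAbs_spec]
  constructor
  · push_cast
    rfl
  · rw [Set.mem_Ioc]
    have h2 := neg_abs_le x.valMinAbs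
    have h3 := le_abs_self x.valMinAbs
    have h4 := neg_abs_le y.valMinAbs
    have h5 := le_abs_self y.valMinAbs
    constructor <;> linarith

/-- the central region -/
def Dreg (n : ℕ) [NeZero n] : Finset (ZMod n × ZMod n) :=
  Finset.univ.filter fun z => 8 * |z.1.valMinAbs| < (n : ℤ) ∧ 8 * |z.2.valMinAbs| < (n : ℤ)

theorem region_bound (a : ZMod n × ZMod n → ℝ) (ha : a 0 = 0) :
    ∑ z, a z ^ 2 ≤ 18 * ∑ z ∈ (Dreg n)ᶜ, a z ^ 2
      + 214 * ∑ z, (a (gen (ZMod n) 3 z) - a z) ^ 2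
      + 187 * ∑ z, (a (gen (ZMod n) 2 z) - a z) ^ 2 := by
  classical
  set μ : ZMod n × ZMod n → ℝ := fun z => a z ^ 2 with hμdef
  have hμ : ∀ z, 0 ≤ μ z := fun z => sq_nonneg _
  set s := gen (ZMod n) 3 with hs
  set t := gen (ZMod n) 2 with ht
  have s_apply : ∀ z, s z = (z.1, z.2 + 2 * z.1) := fun z => rfl
  have s_symm_apply : ∀ z, s.symm z = (z.1, z.2 - 2 * z.1) := fun z => rfl
  have t_apply : ∀ z, t z = (z.1 + 2 * z.2, z.2) := fun z => rfl
  have t_symm_apply : ∀ z, t.symm z = (z.1 - 2 * z.2, z.2) := fun z => rfl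
  have hE2 := sum_abs_sq_sub_le s a
  have hE3 := sum_abs_sq_sub_le t a
  set E2 := ∑ x, |a (s x) ^ 2 - a x ^ 2| with hE2def
  set E3 := ∑ x, |a (t x) ^ 2 - a x ^ 2| with hE3def
  -- regions
  set RA : Finset (ZMod n × ZMod n) :=
    Finset.univ.filter fun z => |z.2.valMinAbs| < |z.1.valMinAbs| with hRA
  set RB : Finset (ZMod n × ZMod n) :=
    Finset.univ.filter fun z => |z.1.valMinAbs| < |z.2.valMinAbs| with hRB
  set RP : Finset (ZMod n × ZMod n) :=
    (Dreg n).filter fun z => z.1.valMinAbs = z.2.valMinAbs ∧ z.1.valMinAbs ≠ 0 with hRP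
  set RN : Finset (ZMod n × ZMod n) :=
    (Dreg n).filter fun z => z.1.valMinAbs = -z.2.valMinAbs ∧ z.1.valMinAbs ≠ 0 with hRN
  have hD : ∀ z, z ∈ Dreg n ↔ 8 * |z.1.valMinAbs| < (n : ℤ) ∧ 8 * |z.2.valMinAbs| < (n : ℤ) := by
    intro z; simp [Dreg]
  -- first ping-pong
  have h1 : 2 * ∑ z ∈ RA ∩ Dreg n, μ z ≤ ∑ z ∈ RB, μ z + 2 * E2 := by
    apply two_sum_le_image s μ hμ
    · intro z hz
      rw [Finset.mem_inter, hD] at hz
      obtain ⟨hz1, hz2, hz3⟩ := hz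
      simp only [hRA, Finset.mem_filter, Finset.mem_univ, true_and] at hz1
      simp only [hRB, Finset.mem_filter, Finset.mem_univ, true_and, s_apply]
      rw [valMinAbs_add_two hz2 hz3]
      simp only [Int.abs_eq_natAbs] at *
      omega
    · intro z hz
      rw [Finset.mem_inter, hD] at hz
      obtain ⟨hz1, hz2, hz3⟩ := hz
      simp only [hRA, Finset.mem_filter, Finset.mem_univ, true_and] at hz1
      simp only [hRB, Finset.mem_filter, Finset.mem_univ, true_and, s_symm_apply]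
      rw [valMinAbs_sub_two hz2 hz3]
      simp only [Int.abs_eq_natAbs] at *
      omega
    · intro z hz w hw h
      rw [Finset.mem_inter, hD] at hz hw
      obtain ⟨hz1, hz2, hz3⟩ := hz
      obtain ⟨hw1, hw2, hw3⟩ := hw
      simp only [hRA, Finset.mem_filter, Finset.mem_univ, true_and] at hz1 hw1
      rw [s_apply, s_symm_apply, Prod.mk.injEq] at h
      have e1 := congrArg ZMod.valMinAbs h.1
      have e2 := congrArg ZMod.valMinAbs h.2
      rw [valMinAbs_add_two hz2 hz3, valMinAbs_sub_two hw2 hw3] at e2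
      simp only [Int.abs_eq_natAbs] at *
      omega
  have h2 : 2 * ∑ z ∈ RB ∩ Dreg n, μ z ≤ ∑ z ∈ RA, μ z + 2 * E3 := by
    apply two_sum_le_image t μ hμ
    · intro z hz
      rw [Finset.mem_inter, hD] at hz
      obtain ⟨hz1, hz2, hz3⟩ := hz
      simp only [hRB, Finset.mem_filter, Finset.mem_univ, true_and] at hz1
      simp only [hRA, Finset.mem_filter, Finset.mem_univ, true_and, t_apply]
      rw [valMinAbs_add_two hz3 hz2]
      simp only [Int.abs_eq_natAbs] at *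
      omega
    · intro z hz
      rw [Finset.mem_inter, hD] at hz
      obtain ⟨hz1, hz2, hz3⟩ := hz
      simp only [hRB, Finset.mem_filter, Finset.mem_univ, true_and] at hz1
      simp only [hRA, Finset.mem_filter, Finset.mem_univ, true_and, t_symm_apply]
      rw [valMinAbs_sub_two hz3 hz2]
      simp only [Int.abs_eq_natAbs] at *
      omega
    · intro z hz w hw h
      rw [Finset.mem_inter, hD] at hz hw
      obtain ⟨hz1, hz2, hz3⟩ := hz
      obtain ⟨hw1, hw2, hw3⟩ := hw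
      simp only [hRB, Finset.mem_filter, Finset.mem_univ, true_and] at hz1 hw1
      rw [t_apply, t_symm_apply, Prod.mk.injEq] at h
      have e1 := congrArg ZMod.valMinAbs h.1
      have e2 := congrArg ZMod.valMinAbs h.2
      rw [valMinAbs_add_two hz3 hz2, valMinAbs_sub_two hw3 hw2] at e1
      simp only [Int.abs_eq_natAbs] at *
      omega
  have h3 : ∑ z ∈ RP, μ z ≤ ∑ z ∈ RB, μ z + E2 := by
    apply sum_le_image s μ hμ
    intro z hz
    rw [hRP, Finset.mem_filter, hD] at hz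
    obtain ⟨⟨hz2, hz3⟩, hz4, hz5⟩ := hz
    simp only [hRB, Finset.mem_filter, Finset.mem_univ, true_and, s_apply]
    rw [valMinAbs_add_two hz2 hz3]
    simp only [Int.abs_eq_natAbs] at *
    omega
  have h4 : ∑ z ∈ RN, μ z ≤ ∑ z ∈ RB, μ z + E2 := by
    have h5 := sum_le_image s.symm μ hμ RN RB (by
      intro z hz
      rw [hRN, Finset.mem_filter, hD] at hz
      obtain ⟨⟨hz2, hz3⟩, hz4, hz5⟩ := hz
      simp only [hRB, Finset.mem_filter, Finset.mem_univ, true_and, s_symm_apply]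
      rw [valMinAbs_sub_two hz2 hz3]
      simp only [Int.abs_eq_natAbs] at *
      omega)
    rwa [sum_abs_symm] at h5
  -- covering
  have hsplit : ∀ R : Finset (ZMod n × ZMod n), ∑ z ∈ R, μ z ≤
      ∑ z ∈ R ∩ Dreg n, μ z + ∑ z ∈ (Dreg n)ᶜ, μ z := by
    intro R
    rw [← Finset.sum_inter_add_sum_sdiff R (Dreg n)]
    have h5 : ∑ z ∈ R \ Dreg n, μ z ≤ ∑ z ∈ (Dreg n)ᶜ, μ z := by
      apply Finset.sum_le_sum_of_subset_of_nonneg
      · intro z hz
        rw [Finset.mem_sdiff] at hz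
        exact Finset.mem_compl.2 hz.2
      · intro i _ _; exact hμ i
    linarith
  have hcover : ∑ z, μ z ≤ ∑ z ∈ RA, μ z + ∑ z ∈ RB, μ z + ∑ z ∈ RP, μ z + ∑ z ∈ RN, μ z
      + ∑ z ∈ (Dreg n)ᶜ, μ z := by
    have hite : ∀ R : Finset (ZMod n × ZMod n), ∑ z ∈ R, μ z = ∑ z, if z ∈ R then μ z else 0 := by
      intro R
      rw [← Finset.sum_filter]
      congr 1
      ext z; simp
    rw [hite RA, hite RB, hite RP, hite RN, hite (Dreg n)ᶜ, ← Finset.sum_add_distrib,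
      ← Finset.sum_add_distrib, ← Finset.sum_add_distrib, ← Finset.sum_add_distrib]
    apply Finset.sum_le_sum
    intro z _
    have hz0 := hμ z
    have n1 : 0 ≤ (if z ∈ RA then μ z else 0) := by split_ifs <;> simp [hz0]
    have n2 : 0 ≤ (if z ∈ RB then μ z else 0) := by split_ifs <;> simp [hz0]
    have n3 : 0 ≤ (if z ∈ RP then μ z else 0) := by split_ifs <;> simp [hz0]
    have n4 : 0 ≤ (if z ∈ RN then μ z else 0) := by split_ifs <;> simp [hz0]
    have n5 : 0 ≤ (if z ∈ (Dreg n)ᶜ then μ z else 0) := by split_ifs <;> simp [hz0]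
    by_cases c0 : z ∈ (Dreg n)ᶜ
    · rw [if_pos c0]; linarith
    have cD : z ∈ Dreg n := by simpa using c0
    rcases lt_trichotomy |z.1.valMinAbs| |z.2.valMinAbs| with c | c | c
    · have : z ∈ RB := by simp [hRB, c]
      rw [if_pos this] at n2 ⊢; linarith
    · by_cases c2 : z.1.valMinAbs = 0
      · have c3 : z.2.valMinAbs = 0 := by rw [c2] at c; simpa using c.symm
        have c4 : z = 0 := by
          rw [ZMod.valMinAbs_eq_zero] at c2 c3
          exact Prod.ext c2 c3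
        have : μ z = 0 := by rw [hμdef, c4]; simp [ha]
        linarith
      · rcases abs_eq_abs.1 c with c5 | c5
        · have : z ∈ RP := by
            rw [hRP, Finset.mem_filter]; exact ⟨cD, c5, c2⟩
          rw [if_pos this] at n3 ⊢; linarith
        · have : z ∈ RN := by
            rw [hRN, Finset.mem_filter]; exact ⟨cD, c5, c2⟩
          rw [if_pos this] at n4 ⊢; linarith
    · have : z ∈ RA := by simp [hRA, c]
      rw [if_pos this] at n1 ⊢; linarith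
  have hA := hsplit RA
  have hB := hsplit RB
  have hd2 : 0 ≤ ∑ z, (a (s z) - a z) ^ 2 := Finset.sum_nonneg fun _ _ => sq_nonneg _
  have hd3 : 0 ≤ ∑ z, (a (t z) - a z) ^ 2 := Finset.sum_nonneg fun _ _ => sq_nonneg _
  simp only [hμdef] at *
  linarith

end regions

section fourier

variable {n : ℕ} [NeZero n]

/-- finite Fourier transform on `(ℤ/n)²` -/
noncomputable def tr (g : ZMod n × ZMod n → ℂ) (ξ : ZMod n × ZMod n) : ℂ :=
  ∑ z : ZMod n × ZMod n, g z * ZMod.stdAddChar (-(ξ.1 * z.1 + ξ.2 * z.2))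

theorem orthogonality (w : ZMod n × ZMod n) :
    ∑ ξ : ZMod n × ZMod n, (ZMod.stdAddChar (ξ.1 * w.1 + ξ.2 * w.2) : ℂ) =
      if w = 0 then (n : ℂ) ^ 2 else 0 := by
  rw [Fintype.sum_prod_type]
  have h1 : ∀ x y : ZMod n, (ZMod.stdAddChar (x * w.1 + y * w.2) : ℂ) =
      ZMod.stdAddChar (x * w.1) * ZMod.stdAddChar (y * w.2) := fun x y => by
    rw [AddChar.map_add_eq_mul]
  simp only [h1, ← Finset.mul_sum, ← Finset.sum_mul]
  rw [AddChar.sum_mulShift w.1 (ZMod.isPrimitive_stdAddChar n),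
    AddChar.sum_mulShift w.2 (ZMod.isPrimitive_stdAddChar n)]
  rw [ZMod.card]
  by_cases h2 : w.1 = 0
  · by_cases h3 : w.2 = 0
    · have : w = 0 := Prod.ext h2 h3
      simp [this, sq]
    · have : w ≠ 0 := fun h => h3 (by rw [h]; rfl)
      simp [h3, this]
  · have : w ≠ 0 := fun h => h2 (by rw [h]; rfl)
    simp [h2, this]

theorem parseval (g : ZMod n × ZMod n → ℂ) :
    ∑ ξ, ‖tr g ξ‖ ^ 2 = (n : ℝ) ^ 2 * ∑ z, ‖g z‖ ^ 2 := by
  have h : ((∑ ξ, ‖tr g ξ‖ ^ 2 : ℝ) : ℂ) = (((n : ℝ) ^ 2 * ∑ z, ‖g z‖ ^ 2 : ℝ) : ℂ) := by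
    push_cast
    have h1 : ∀ w : ℂ, ((‖w‖ : ℂ)) ^ 2 = w * (starRingEnd ℂ) w := fun w => by
      rw [Complex.mul_conj, Complex.normSq_eq_norm_sq]
      push_cast
      rfl
    simp only [h1]
    have h2 : ∀ ξ : ZMod n × ZMod n, tr g ξ * (starRingEnd ℂ) (tr g ξ) =
        ∑ z, ∑ w, (g z * (starRingEnd ℂ) (g w)) *
          ZMod.stdAddChar (ξ.1 * (w - z).1 + ξ.2 * (w - z).2) := by
      intro ξ
      unfold tr
      rw [map_sum, Finset.sum_mul_sum]
      apply Finset.sum_congr rfl; intro z _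
      apply Finset.sum_congr rfl; intro w _
      rw [map_mul, ← AddChar.map_neg_eq_conj, neg_neg]
      have : (ZMod.stdAddChar (ξ.1 * (w - z).1 + ξ.2 * (w - z).2) : ℂ) =
          ZMod.stdAddChar (-(ξ.1 * z.1 + ξ.2 * z.2)) * ZMod.stdAddChar (ξ.1 * w.1 + ξ.2 * w.2) := by
        rw [← AddChar.map_add_eq_mul]
        congr 1
        simp only [Prod.fst_sub, Prod.snd_sub]
        ring
      rw [this]
      ring
    simp only [h2]
    rw [Finset.sum_comm]
    have h3 : ∀ z : ZMod n × ZMod n, ∑ ξ : ZMod n × ZMod n, ∑ w, (g z * (starRingEnd ℂ) (g w)) *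
          (ZMod.stdAddChar (ξ.1 * (w - z).1 + ξ.2 * (w - z).2) : ℂ) =
          (n : ℂ) ^ 2 * (g z * (starRingEnd ℂ) (g z)) := by
      intro z
      rw [Finset.sum_comm]
      simp only [← Finset.mul_sum, orthogonality, sub_eq_zero]
      simp only [mul_ite, mul_zero]
      rw [Finset.sum_ite_eq' Finset.univ z]
      simp only [Finset.mem_univ, if_true]
      ring
    simp only [h3]
    rw [Finset.mul_sum]
  exact_mod_cast h

theorem tr_comp (s r : Equiv.Perm (ZMod n × ZMod n)) (g : ZMod n × ZMod n → ℂ)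
    (ξ : ZMod n × ZMod n)
    (h : ∀ z, ξ.1 * (s.symm z).1 + ξ.2 * (s.symm z).2 = (r ξ).1 * z.1 + (r ξ).2 * z.2) :
    tr (fun z => g (s z)) ξ = tr g (r ξ) := by
  unfold tr
  rw [← Equiv.sum_comp s.symm]
  apply Finset.sum_congr rfl
  intro z _
  beta_reduce
  rw [Equiv.apply_symm_apply, h]

theorem tr_sub (g h : ZMod n × ZMod n → ℂ) (ξ : ZMod n × ZMod n) :
    tr (fun z => g z - h z) ξ = tr g ξ - tr h ξ := by
  unfold tr
  rw [← Finset.sum_sub_distrib]
  apply Finset.sum_congr rfl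
  intro z _
  ring

theorem norm_stdAddChar_sub_one {x : ZMod n} (hx : (n : ℤ) ≤ 8 * |x.valMinAbs|) :
    1 / 4 ≤ ‖(ZMod.stdAddChar x : ℂ) - 1‖ ^ 2 := by
  set v := x.valMinAbs with hv
  have hxv : x = ((v : ℤ) : ZMod n) := (ZMod.coe_valMinAbs x).symm
  have hn : (0 : ℝ) < n := by exact_mod_cast Nat.pos_of_ne_zero (NeZero.ne n)
  have hpi := Real.pi_pos
  rw [hxv, ZMod.stdAddChar_coe]
  have e1 : (2 * (Real.pi : ℂ) * Complex.I * (v : ℂ) / (n : ℂ)) =
      Complex.I * ((2 * Real.pi * v / n : ℝ) : ℂ) := by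
    push_cast
    ring
  rw [e1, Complex.norm_exp_I_mul_ofReal_sub_one, Real.norm_eq_abs, sq_abs]
  have hle : |(2 * Real.pi * v / n : ℝ) / 2| ≤ Real.pi / 2 := by
    have h1 : |v| * 2 ≤ (n : ℤ) := by
      have := ZMod.natAbs_valMinAbs_le x
      rw [Int.abs_eq_natAbs]
      omega
    have h2 : |(v : ℝ)| * 2 ≤ n := by exact_mod_cast h1
    have : (2 * Real.pi * v / n : ℝ) / 2 = Real.pi * (v / n) := by ring
    rw [this, abs_mul, abs_of_pos hpi, abs_div, abs_of_pos hn]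
    have h3 : |(v : ℝ)| / n ≤ 1 / 2 := by
      rw [div_le_div_iff₀ hn (by norm_num)]
      linarith
    calc Real.pi * (|(v : ℝ)| / n) ≤ Real.pi * (1 / 2) := by gcongr
      _ = Real.pi / 2 := by ring
  have h4 := Real.mul_abs_le_abs_sin hle
  have h5 : 1 / 4 ≤ 2 / Real.pi * |(2 * Real.pi * v / n : ℝ) / 2| := by
    have h1 : (n : ℝ) ≤ 8 * |(v : ℝ)| := by exact_mod_cast hx
    have : (2 * Real.pi * v / n : ℝ) / 2 = Real.pi * (v / n) := by ring
    rw [this, abs_mul, abs_of_pos hpi, abs_div, abs_of_pos hn]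
    have h3 : 1 / 8 ≤ |(v : ℝ)| / n := by
      rw [div_le_div_iff₀ (by norm_num) hn]
      linarith
    calc (1 : ℝ) / 4 = 2 * (1 / 8) := by norm_num
      _ ≤ 2 * (|(v : ℝ)| / n) := by gcongr
      _ = 2 / Real.pi * (Real.pi * (|(v : ℝ)| / n)) := by field_simp
  have h6 : 1 / 4 ≤ |Real.sin ((2 * Real.pi * v / n : ℝ) / 2)| := h5.trans h4
  have h7 : (1 / 4 : ℝ) ^ 2 ≤ Real.sin ((2 * Real.pi * v / n : ℝ) / 2) ^ 2 := by
    rw [← sq_abs (Real.sin _)]
    exact pow_le_pow_left₀ (by norm_num) h6 2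
  nlinarith

theorem gap (n : ℕ) [NeZero n] (f : ZMod n × ZMod n → ℝ) (hf : ∑ z, f z = 0) :
    ∑ z, (f z) ^ 2 ≤ 1000 * ∑ i : Fin 4, ∑ z, (f (gen (ZMod n) i z) - f z) ^ 2 := by
  set F : ZMod n × ZMod n → ℂ := fun z => (f z : ℂ) with hF
  set a : ZMod n × ZMod n → ℝ := fun ξ => ‖tr F ξ‖ with ha
  have hn : (0 : ℝ) < (n : ℝ) ^ 2 := by
    have : (0 : ℝ) < n := by exact_mod_cast Nat.pos_of_ne_zero (NeZero.ne n)
    positivity
  have ha0 : a 0 = 0 := by
    simp only [ha, tr, Prod.fst_zero, Prod.snd_zero, zero_mul, add_zero, neg_zero,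
      AddChar.map_zero_eq_one, mul_one, hF]
    rw [← Complex.ofReal_sum, hf]
    simp
  -- differences
  have hdiff : ∀ i : Fin 4, ∑ ξ, ‖tr (fun z => F (gen (ZMod n) i z)) ξ - tr F ξ‖ ^ 2 =
      (n : ℝ) ^ 2 * ∑ z, (f (gen (ZMod n) i z) - f z) ^ 2 := by
    intro i
    have := parseval (fun z => F (gen (ZMod n) i z) - F z)
    simp only [tr_sub] at this
    rw [this]
    congr 1
    apply Finset.sum_congr rfl
    intro z _
    rw [hF]
    simp only
    rw [← Complex.ofReal_sub, Complex.norm_real, Real.norm_eq_abs, sq_abs]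
  have hM : ∑ ξ, a ξ ^ 2 = (n : ℝ) ^ 2 * ∑ z, f z ^ 2 := by
    rw [ha]
    simp only
    rw [parseval]
    congr 1
    apply Finset.sum_congr rfl
    intro z _
    rw [hF]
    simp only
    rw [Complex.norm_real, Real.norm_eq_abs, sq_abs]
  -- the two unipotent generators
  have h3 : ∑ z, (a (gen (ZMod n) 3 z) - a z) ^ 2 ≤
      (n : ℝ) ^ 2 * ∑ z, (f (gen (ZMod n) 2 z) - f z) ^ 2 := by
    rw [← hdiff 2, ← Equiv.sum_comp (gen (ZMod n) 3).symm]
    apply Finset.sum_le_sum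
    intro ξ _
    rw [Equiv.apply_symm_apply, tr_comp (gen (ZMod n) 2) (gen (ZMod n) 3).symm F ξ (by
      intro z
      change ξ.1 * (z.1 - 2 * z.2) + ξ.2 * z.2 = ξ.1 * z.1 + (ξ.2 - 2 * ξ.1) * z.2
      ring)]
    rw [← sq_abs (a ξ - _)]
    apply pow_le_pow_left₀ (abs_nonneg _)
    rw [abs_sub_comm]
    exact abs_norm_sub_norm_le _ _
  have h2 : ∑ z, (a (gen (ZMod n) 2 z) - a z) ^ 2 ≤
      (n : ℝ) ^ 2 * ∑ z, (f (gen (ZMod n) 3 z) - f z) ^ 2 := by
    rw [← hdiff 3, ← Equiv.sum_comp (gen (ZMod n) 2).symm]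
    apply Finset.sum_le_sum
    intro ξ _
    rw [Equiv.apply_symm_apply, tr_comp (gen (ZMod n) 3) (gen (ZMod n) 2).symm F ξ (by
      intro z
      change ξ.1 * z.1 + ξ.2 * (z.2 - 2 * z.1) = (ξ.1 - 2 * ξ.2) * z.1 + ξ.2 * z.2
      ring)]
    rw [← sq_abs (a ξ - _)]
    apply pow_le_pow_left₀ (abs_nonneg _)
    rw [abs_sub_comm]
    exact abs_norm_sub_norm_le _ _
  -- the translations
  have t0 : ∀ ξ, tr (fun z => F (gen (ZMod n) 0 z)) ξ = ZMod.stdAddChar ξ.1 * tr F ξ := by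
    intro ξ
    unfold tr
    rw [← Equiv.sum_comp (gen (ZMod n) 0).symm, Finset.mul_sum]
    apply Finset.sum_congr rfl
    intro z _
    beta_reduce
    rw [Equiv.apply_symm_apply]
    have : (-(ξ.1 * ((gen (ZMod n) 0).symm z).1 + ξ.2 * ((gen (ZMod n) 0).symm z).2)) =
        ξ.1 + (-(ξ.1 * z.1 + ξ.2 * z.2)) := by
      change -(ξ.1 * (z.1 - 1) + ξ.2 * z.2) = _
      ring
    rw [this, AddChar.map_add_eq_mul]
    ring
  have t1 : ∀ ξ, tr (fun z => F (gen (ZMod n) 1 z)) ξ = ZMod.stdAddChar ξ.2 * tr F ξ := by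
    intro ξ
    unfold tr
    rw [← Equiv.sum_comp (gen (ZMod n) 1).symm, Finset.mul_sum]
    apply Finset.sum_congr rfl
    intro z _
    beta_reduce
    rw [Equiv.apply_symm_apply]
    have : (-(ξ.1 * ((gen (ZMod n) 1).symm z).1 + ξ.2 * ((gen (ZMod n) 1).symm z).2)) =
        ξ.2 + (-(ξ.1 * z.1 + ξ.2 * z.2)) := by
      change -(ξ.1 * z.1 + ξ.2 * (z.2 - 1)) = _
      ring
    rw [this, AddChar.map_add_eq_mul]
    ring
  have hDc : ∑ ξ ∈ (Dreg n)ᶜ, a ξ ^ 2 ≤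
      4 * ((n : ℝ) ^ 2 * ∑ z, (f (gen (ZMod n) 0 z) - f z) ^ 2 +
        (n : ℝ) ^ 2 * ∑ z, (f (gen (ZMod n) 1 z) - f z) ^ 2) := by
    rw [← hdiff 0, ← hdiff 1, ← Finset.sum_add_distrib, Finset.mul_sum]
    have hle : ∀ ξ ∈ (Dreg n)ᶜ, a ξ ^ 2 ≤ 4 * (‖tr (fun z => F (gen (ZMod n) 0 z)) ξ - tr F ξ‖ ^ 2 +
        ‖tr (fun z => F (gen (ZMod n) 1 z)) ξ - tr F ξ‖ ^ 2) := by
      intro ξ hξ
      have hξ' : (n : ℤ) ≤ 8 * |ξ.1.valMinAbs| ∨ (n : ℤ) ≤ 8 * |ξ.2.valMinAbs| := by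
        by_contra hcon
        push Not at hcon
        rw [Finset.mem_compl] at hξ
        apply hξ
        simp only [Dreg, Finset.mem_filter, Finset.mem_univ, true_and]
        exact hcon
      have e0 : ‖tr (fun z => F (gen (ZMod n) 0 z)) ξ - tr F ξ‖ ^ 2 =
          ‖(ZMod.stdAddChar ξ.1 : ℂ) - 1‖ ^ 2 * a ξ ^ 2 := by
        rw [t0, ha]
        simp only
        rw [← mul_pow, ← norm_mul]
        congr 2
        ring
      have e1 : ‖tr (fun z => F (gen (ZMod n) 1 z)) ξ - tr F ξ‖ ^ 2 =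
          ‖(ZMod.stdAddChar ξ.2 : ℂ) - 1‖ ^ 2 * a ξ ^ 2 := by
        rw [t1, ha]
        simp only
        rw [← mul_pow, ← norm_mul]
        congr 2
        ring
      rw [e0, e1]
      have q0 : 0 ≤ ‖(ZMod.stdAddChar ξ.1 : ℂ) - 1‖ ^ 2 * a ξ ^ 2 := by positivity
      have q1 : 0 ≤ ‖(ZMod.stdAddChar ξ.2 : ℂ) - 1‖ ^ 2 * a ξ ^ 2 := by positivity
      have q2 : 0 ≤ a ξ ^ 2 := by positivity
      rcases hξ' with h | h
      · have := mul_le_mul_of_nonneg_right (norm_stdAddChar_sub_one h) q2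
        linarith
      · have := mul_le_mul_of_nonneg_right (norm_stdAddChar_sub_one h) q2
        linarith
    calc ∑ ξ ∈ (Dreg n)ᶜ, a ξ ^ 2 ≤ ∑ ξ ∈ (Dreg n)ᶜ, 4 * (‖tr (fun z => F (gen (ZMod n) 0 z)) ξ - tr F ξ‖ ^ 2 +
        ‖tr (fun z => F (gen (ZMod n) 1 z)) ξ - tr F ξ‖ ^ 2) := Finset.sum_le_sum hle
      _ ≤ _ := Finset.sum_le_sum_of_subset_of_nonneg (Finset.subset_univ _)
          (fun i _ _ => by positivity)
  have key := region_bound a ha0
  rw [hM] at key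
  set s0 := ∑ z, (f (gen (ZMod n) 0 z) - f z) ^ 2 with hs0
  set s1 := ∑ z, (f (gen (ZMod n) 1 z) - f z) ^ 2 with hs1
  set s2 := ∑ z, (f (gen (ZMod n) 2 z) - f z) ^ 2 with hs2
  set s3 := ∑ z, (f (gen (ZMod n) 3 z) - f z) ^ 2 with hs3
  have p0 : 0 ≤ s0 := Finset.sum_nonneg fun _ _ => sq_nonneg _
  have p1 : 0 ≤ s1 := Finset.sum_nonneg fun _ _ => sq_nonneg _
  have p2 : 0 ≤ s2 := Finset.sum_nonneg fun _ _ => sq_nonneg _
  have p3 : 0 ≤ s3 := Finset.sum_nonneg fun _ _ => sq_nonneg _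
  have hsum : ∑ i : Fin 4, ∑ z, (f (gen (ZMod n) i z) - f z) ^ 2 = s0 + s1 + s2 + s3 := by
    rw [Fin.sum_univ_four]
  rw [hsum]
  have hfin : (n : ℝ) ^ 2 * ∑ z, f z ^ 2 ≤ (n : ℝ) ^ 2 * (1000 * (s0 + s1 + s2 + s3)) := by
    have m0 := mul_nonneg hn.le p0
    have m1 := mul_nonneg hn.le p1
    have m2 := mul_nonneg hn.le p2
    have m3 := mul_nonneg hn.le p3
    nlinarith
  exact le_of_mul_le_mul_left hfin hn

end fourier

end Vale.Agent.LipFree
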